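import Mathlib.LinearAlgebra.Dimension.Finite
import Mathlib.LinearAlgebra.FiniteDimensional.Lemmas
import Mathlib.LinearAlgebra.Pi
import Mathlib.Algebra.Field.ZMod
import Vale.Agent.P039.Bn.Defs

/-!
# P039 : the inequality `|K| ≤ E_H - V_H + 1` (helper84)
-/

set_option linter.all false

namespace Vale.Agent.P039.H84

open Finset Module

section abs
variable {E U K : Type*} [Fintype E] [Fintype U] [DecidableEq U] [Fintype K]

/-- the boundary of a mod 2 chain of edges -/
def bd (a b : E → U) : (E → ZMod 2) →ₗ[ZMod 2] (U → ZMod 2) where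
  toFun y := fun u => ∑ e, y e * ((if a e = u then 1 else 0) + (if b e = u then 1 else 0))
  map_add' x y := by
    funext u
    simp only [Pi.add_apply, add_mul, sum_add_distrib]
  map_smul' c y := by
    funext u
    simp only [Pi.smul_apply, smul_eq_mul, RingHom.id_apply, mul_sum, mul_assoc]

theorem bd_single [DecidableEq E] (a b : E → U) (e : E) :
    bd a b (Pi.single e 1) = Pi.single (a e) 1 + Pi.single (b e) 1 := by
  funext u
  simp only [bd, LinearMap.coe_mk, AddHom.coe_mk, Pi.add_apply]
  rw [sum_eq_single e]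
  · rw [Pi.single_eq_same, one_mul]
    congr 1
    · by_cases h : a e = u
      · subst h; simp
      · rw [if_neg h, Pi.single_eq_of_ne (Ne.symm h)]
    · by_cases h : b e = u
      · subst h; simp
      · rw [if_neg h, Pi.single_eq_of_ne (Ne.symm h)]
  · intro x _ hx
    rw [Pi.single_eq_of_ne hx, zero_mul]
  · intro h; exact absurd (mem_univ e) h

/-- **Cycle rank inequality.** -/
theorem cyc_rank (a b : E → U)
    (conn : ∀ x y : U, Relation.EqvGen (fun x y => ∃ e, a e = x ∧ b e = y) x y)
    (D : (K → ZMod 2) →ₗ[ZMod 2] (E → ZMod 2)) (hD : Function.Injective D)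
    (hz : ∀ x, bd a b (D x) = 0) : Fintype.card K + Fintype.card U ≤ Fintype.card E + 1 := by
  classical
  rcases isEmpty_or_nonempty U with hU | ⟨⟨u0⟩⟩
  · have h1 : Fintype.card U = 0 := Fintype.card_eq_zero
    have h2 := LinearMap.finrank_le_finrank_of_injective hD
    rw [finrank_fintype_fun_eq_card, finrank_fintype_fun_eq_card] at h2
    omega
  have hr : LinearMap.range (bd a b) ⊔ Submodule.span (ZMod 2) {Pi.single u0 1} = ⊤ := by
    rw [eq_top_iff]
    have hmem : ∀ u, (Pi.single u0 1 + Pi.single u 1 : U → ZMod 2) ∈ LinearMap.range (bd a b) := by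
      intro u
      have key : ∀ x y : U, Relation.EqvGen (fun x y => ∃ e, a e = x ∧ b e = y) x y →
          (Pi.single x 1 + Pi.single y 1 : U → ZMod 2) ∈ LinearMap.range (bd a b) := by
        intro x y h
        induction h with
        | rel x y h =>
          obtain ⟨e, rfl, rfl⟩ := h
          exact ⟨Pi.single e 1, bd_single a b e⟩
        | refl x =>
          have : (Pi.single x 1 + Pi.single x 1 : U → ZMod 2) = 0 := by
            rw [← two_smul (ZMod 2)]
            have : (2 : ZMod 2) = 0 := rfl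
            rw [this, zero_smul]
          rw [this]; exact Submodule.zero_mem _
        | symm x y _ ih => rwa [add_comm]
        | trans x y z _ _ ih1 ih2 =>
          have h3 := Submodule.add_mem _ ih1 ih2
          have : (Pi.single x 1 + Pi.single y 1 + (Pi.single y 1 + Pi.single z 1) : U → ZMod 2)
              = Pi.single x 1 + Pi.single z 1 + (2 : ZMod 2) • Pi.single y 1 := by
            rw [two_smul]; abel
          rw [this] at h3
          have h2 : (2 : ZMod 2) = 0 := rfl
          rwa [h2, zero_smul, add_zero] at h3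
      exact key u0 u (conn u0 u)
    intro x _
    have hx : x = ∑ u, x u • (Pi.single u 1 : U → ZMod 2) := by
      funext v
      rw [Finset.sum_apply]
      simp [Pi.single_apply]
    rw [hx]
    refine Submodule.sum_mem _ fun u _ => Submodule.smul_mem _ _ ?_
    have h4 : (Pi.single u 1 : U → ZMod 2) = (Pi.single u0 1 + Pi.single u 1) + Pi.single u0 1 := by
      have : (Pi.single u0 1 + Pi.single u 1 + Pi.single u0 1 : U → ZMod 2)
          = Pi.single u 1 + (2 : ZMod 2) • Pi.single u0 1 := by
        rw [two_smul]; abel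
      rw [this]
      have h2 : (2 : ZMod 2) = 0 := rfl
      rw [h2, zero_smul, add_zero]
    rw [h4]
    exact Submodule.add_mem _ (Submodule.mem_sup_left (hmem u))
      (Submodule.mem_sup_right (Submodule.mem_span_singleton_self _))
  have h1 : Fintype.card U ≤ finrank (ZMod 2) (LinearMap.range (bd a b)) + 1 := by
    have h2 := Submodule.finrank_add_le_finrank_add_finrank (LinearMap.range (bd a b))
      (Submodule.span (ZMod 2) {(Pi.single u0 1 : U → ZMod 2)})
    rw [hr, finrank_top, finrank_fintype_fun_eq_card] at h2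
    have h3 : finrank (ZMod 2) (Submodule.span (ZMod 2) {(Pi.single u0 1 : U → ZMod 2)}) ≤ 1 :=
      (finrank_span_le_card _).trans (by simp)
    omega
  have h2 := LinearMap.finrank_range_add_finrank_ker (bd a b)
  rw [finrank_fintype_fun_eq_card] at h2
  have h3 : Fintype.card K ≤ finrank (ZMod 2) (LinearMap.ker (bd a b)) := by
    have h4 : LinearMap.range D ≤ LinearMap.ker (bd a b) := by
      rintro _ ⟨x, rfl⟩
      exact hz x
    have h5 := Submodule.finrank_mono h4
    rw [LinearMap.finrank_range_of_inj hD, finrank_fintype_fun_eq_card] at h5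
    exact h5
  omega

end abs

section web
open Vale.Agent.P039.Bn
variable {B W V : Type} [Fintype B] [Fintype W] [Fintype V] [DecidableEq B] [DecidableEq W]
  [DecidableEq V]

theorem eqvGen_lift {X : Type*} (r : X → X → Prop) (P : X → Prop)
    (h : ∀ x y, r x y → P x ∧ P y) {x y : X} (hxy : Relation.EqvGen r x y) :
    x = y ∨ ∃ (hx : P x) (hy : P y),
      Relation.EqvGen (fun a b : {x // P x} => r a.1 b.1) ⟨x, hx⟩ ⟨y, hy⟩ := by
  induction hxy with
  | rel x y hr => exact Or.inr ⟨(h x y hr).1, (h x y hr).2, Relation.EqvGen.rel _ _ hr⟩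
  | refl x => exact Or.inl rfl
  | symm x y _ ih =>
    rcases ih with rfl | ⟨hx, hy, ih⟩
    · exact Or.inl rfl
    · exact Or.inr ⟨hy, hx, ih.symm⟩
  | trans x y z _ _ ih1 ih2 =>
    rcases ih1 with rfl | ⟨hx, hy, ih1⟩
    · exact ih2
    · rcases ih2 with rfl | ⟨hy', hz, ih2⟩
      · exact Or.inr ⟨hx, hy, ih1⟩
      · exact Or.inr ⟨hx, hz, ih1.trans _ _ _ ih2⟩

/-- the extension by zero -/
def ext0 (K : Finset V) (x : K → ZMod 2) (v : V) : ZMod 2 := if h : v ∈ K then x ⟨v, h⟩ else 0

theorem ext0_add (K : Finset V) (x y : K → ZMod 2) (v : V) :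
    ext0 K (x + y) v = ext0 K x v + ext0 K y v := by
  unfold ext0
  split_ifs <;> simp

theorem ext0_smul (K : Finset V) (c : ZMod 2) (x : K → ZMod 2) (v : V) :
    ext0 K (c • x) v = c * ext0 K x v := by
  unfold ext0
  split_ifs <;> simp

/-- **The inequality** `|K| ≤ E_H - V_H + 1`: `K` a proper set of faces, `H` a connected subgraph
with vertex set `UH`, edge set `EH`, which contains all edges on the boundaries of the faces
of `K`. -/
theorem face_rank (M : PMap B W V) (hc : M.Conn) (K : Finset V) (hK : K ≠ univ)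
    (EH : Finset (B × Fin 3)) (UH : Finset (B ⊕ W))
    (hE : ∀ q ∈ EH, Sum.inl q.1 ∈ UH ∧ Sum.inr (M.e q.2 q.1) ∈ UH)
    (hK2 : ∀ i b, (M.c (i + 1) b ∈ K ∨ M.c (i + 2) b ∈ K) → (b, i) ∈ EH)
    (conn : ∀ x ∈ UH, ∀ y ∈ UH, Relation.EqvGen
      (fun x y : B ⊕ W => ∃ q ∈ EH, x = Sum.inl q.1 ∧ y = Sum.inr (M.e q.2 q.1)) x y) :
    K.card + UH.card ≤ EH.card + 1 := by
  classical
  let a : EH → UH := fun q => ⟨Sum.inl q.1.1, (hE q.1 q.2).1⟩
  let b : EH → UH := fun q => ⟨Sum.inr (M.e q.1.2 q.1.1), (hE q.1 q.2).2⟩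
  have two0 : ∀ z : ZMod 2, z + z = 0 := by decide
  let D : (K → ZMod 2) →ₗ[ZMod 2] (EH → ZMod 2) :=
    { toFun := fun x q => ext0 K x (M.c (q.1.2 + 1) q.1.1) + ext0 K x (M.c (q.1.2 + 2) q.1.1)
      map_add' := fun x y => by
        funext q
        simp only [ext0_add, Pi.add_apply]
        ring
      map_smul' := fun c x => by
        funext q
        simp only [ext0_smul, Pi.smul_apply, smul_eq_mul, RingHom.id_apply]
        ring }
  have hDa : ∀ x q, D x q = ext0 K x (M.c (q.1.2 + 1) q.1.1) + ext0 K x (M.c (q.1.2 + 2) q.1.1) :=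
    fun _ _ => rfl
  -- values outside of `EH` vanish
  have hout : ∀ (x : K → ZMod 2) i (b : B), (b, i) ∉ EH →
      ext0 K x (M.c (i + 1) b) = 0 ∧ ext0 K x (M.c (i + 2) b) = 0 := by
    intro x i b h
    have h1 := not_or.1 fun h' => h (hK2 i b h')
    exact ⟨dif_neg h1.1, dif_neg h1.2⟩
  have hD : Function.Injective D := by
    rw [injective_iff_map_eq_zero]
    intro x hx
    have h1 : ∀ i (b : B), ext0 K x (M.c (i + 1) b) = ext0 K x (M.c (i + 2) b) := by
      intro i b
      by_cases h : (b, i) ∈ EH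
      · have h2 := congrFun hx ⟨(b, i), h⟩
        rw [hDa] at h2
        simp only [Pi.zero_apply] at h2
        have h3 : ∀ u v : ZMod 2, u + v = 0 → u = v := by decide
        exact h3 _ _ h2
      · rw [(hout x i b h).1, (hout x i b h).2]
    have h2 : ∀ (b : B) j j', ext0 K x (M.c j b) = ext0 K x (M.c j' b) := by
      intro b
      have e0 := h1 0 b
      have e1 := h1 1 b
      have e2 := h1 2 b
      simp only [show (0 : Fin 3) + 1 = 1 from rfl, show (0 : Fin 3) + 2 = 2 from rfl,
        show (1 : Fin 3) + 1 = 2 from rfl, show (1 : Fin 3) + 2 = 0 from rfl,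
        show (2 : Fin 3) + 1 = 0 from rfl, show (2 : Fin 3) + 2 = 1 from rfl] at e0 e1 e2
      have g : ∀ j, ext0 K x (M.c j b) = ext0 K x (M.c 0 b) := by
        intro j
        fin_cases j
        · rfl
        · exact e2.symm
        · exact e1
      intro j j'
      rw [g j, g j']
    have h3 : ∀ b b' : B, Relation.EqvGen (fun x y => ∃ j, M.c j x = M.c j y) b b' →
        ∀ j, ext0 K x (M.c j b) = ext0 K x (M.c j b') := by
      intro b b' h
      induction h with
      | rel x' y' h =>
        obtain ⟨j0, h⟩ := h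
        intro j
        rw [h2 x' j j0, h, h2 y' j0 j]
      | refl _ => intro j; rfl
      | symm _ _ _ ih => intro j; exact (ih j).symm
      | trans _ _ _ _ _ ih1 ih2 => intro j; exact (ih1 j).trans (ih2 j)
    obtain ⟨v0, hv0⟩ : ∃ v, v ∉ K := by
      by_contra hcon
      push Not at hcon
      exact hK (eq_univ_iff_forall.2 hcon)
    obtain ⟨j0, b0, hb0⟩ := M.surj v0
    funext ⟨v, hv⟩
    obtain ⟨j, b, hb⟩ := M.surj v
    have h4 : ext0 K x v = 0 := by
      rw [← hb, h2 b j j0, h3 b b0 (hc b b0) j0, hb0]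
      exact dif_neg hv0
    unfold ext0 at h4
    rw [dif_pos hv] at h4
    exact h4
  have hz : ∀ x, bd a b (D x) = 0 := by
    intro x
    funext ⟨u, hu⟩
    have e1 : bd a b (D x) ⟨u, hu⟩ = ∑ q : B × Fin 3,
        (ext0 K x (M.c (q.2 + 1) q.1) + ext0 K x (M.c (q.2 + 2) q.1)) *
          ((if (Sum.inl q.1 : B ⊕ W) = u then 1 else 0) +
            (if (Sum.inr (M.e q.2 q.1) : B ⊕ W) = u then 1 else 0)) := by
      have e2 : ∑ q : B × Fin 3,
          (ext0 K x (M.c (q.2 + 1) q.1) + ext0 K x (M.c (q.2 + 2) q.1)) *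
          ((if (Sum.inl q.1 : B ⊕ W) = u then 1 else 0) +
            (if (Sum.inr (M.e q.2 q.1) : B ⊕ W) = u then 1 else 0)) =
          ∑ q ∈ EH, (ext0 K x (M.c (q.2 + 1) q.1) + ext0 K x (M.c (q.2 + 2) q.1)) *
          ((if (Sum.inl q.1 : B ⊕ W) = u then 1 else 0) +
            (if (Sum.inr (M.e q.2 q.1) : B ⊕ W) = u then 1 else 0)) := by
        symm
        apply sum_subset (subset_univ _)
        intro q _ hq
        rw [(hout x q.2 q.1 hq).1, (hout x q.2 q.1 hq).2, add_zero, zero_mul]
      rw [e2, ← sum_coe_sort EH]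
      simp only [bd, LinearMap.coe_mk, AddHom.coe_mk]
      refine sum_congr rfl fun q _ => ?_
      rw [hDa]
      simp only [a, b, Subtype.mk.injEq]
    rw [e1]
    simp only [Pi.zero_apply]
    rcases u with b1 | w1
    · have e3 : ∀ q : B × Fin 3, (if (Sum.inr (M.e q.2 q.1) : B ⊕ W) = Sum.inl b1 then (1 : ZMod 2)
          else 0) = 0 := fun q => if_neg (by simp)
      simp only [e3, add_zero, Sum.inl.injEq]
      rw [Fintype.sum_prod_type]
      rw [sum_eq_single b1]
      · simp only [if_true, mul_one, Fin.sum_univ_three]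
        simp only [show (0 : Fin 3) + 1 = 1 from rfl, show (0 : Fin 3) + 2 = 2 from rfl,
          show (1 : Fin 3) + 1 = 2 from rfl, show (1 : Fin 3) + 2 = 0 from rfl,
          show (2 : Fin 3) + 1 = 0 from rfl, show (2 : Fin 3) + 2 = 1 from rfl]
        generalize ext0 K x (M.c 0 b1) = x0
        generalize ext0 K x (M.c 1 b1) = x1
        generalize ext0 K x (M.c 2 b1) = x2
        revert x0 x1 x2
        decide
      · intro b' _ hb'
        refine sum_eq_zero fun i _ => ?_
        rw [if_neg hb', mul_zero]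
      · intro h; exact absurd (mem_univ _) h
    · have e3 : ∀ q : B × Fin 3, (if (Sum.inl q.1 : B ⊕ W) = Sum.inr w1 then (1 : ZMod 2)
          else 0) = 0 := fun q => if_neg (by simp)
      simp only [e3, zero_add, Sum.inr.injEq]
      rw [Fintype.sum_prod_type, sum_comm]
      have e4 : ∀ i : Fin 3, ∑ b' : B,
          (ext0 K x (M.c (i + 1) b') + ext0 K x (M.c (i + 2) b')) *
            (if M.e i b' = w1 then 1 else 0) =
          ext0 K x (M.cw (i + 1) w1) + ext0 K x (M.cw (i + 2) w1) := by
        intro i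
        rw [sum_eq_single ((M.e i).symm w1)]
        · rw [Equiv.apply_symm_apply, if_pos rfl, mul_one,
            M.cw_symm (i + 1) i (fne1 i).symm, M.cw_symm (i + 2) i (fne2 i).symm]
        · intro b' _ hb'
          rw [if_neg, mul_zero]
          intro h
          apply hb'
          rw [← h, Equiv.symm_apply_apply]
        · intro h; exact absurd (mem_univ _) h
      rw [sum_congr rfl fun i _ => e4 i, Fin.sum_univ_three]
      simp only [show (0 : Fin 3) + 1 = 1 from rfl, show (0 : Fin 3) + 2 = 2 from rfl,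
        show (1 : Fin 3) + 1 = 2 from rfl, show (1 : Fin 3) + 2 = 0 from rfl,
        show (2 : Fin 3) + 1 = 0 from rfl, show (2 : Fin 3) + 2 = 1 from rfl]
      generalize ext0 K x (M.cw 0 w1) = x0
      generalize ext0 K x (M.cw 1 w1) = x1
      generalize ext0 K x (M.cw 2 w1) = x2
      revert x0 x1 x2
      decide
  have hconn : ∀ x y : UH, Relation.EqvGen (fun x y => ∃ e, a e = x ∧ b e = y) x y := by
    rintro ⟨x, hx⟩ ⟨y, hy⟩
    rcases eqvGen_lift _ (fun u => u ∈ UH) (fun x y h => by
      obtain ⟨q, hq, rfl, rfl⟩ := h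
      exact hE q hq) (conn x hx y hy) with h | ⟨_, _, h⟩
    · subst h; exact Relation.EqvGen.refl _
    · refine Relation.EqvGen.mono (fun x y h => ?_) _ _ h
      obtain ⟨q, hq, h1, h2⟩ := h
      exact ⟨⟨q, hq⟩, Subtype.ext h1.symm, Subtype.ext h2.symm⟩
  have := cyc_rank a b hconn D hD hz
  simpa using this

end web

end Vale.Agent.P039.H84
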