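import Vale.Agent.P039.H84.CycRank

/-!
# P039 : the inequality `|I| ≤ E - V + 1` for the hexagons of the corner graph (helper84)
-/

set_option linter.all false

namespace Vale.Agent.P039.H84

open Finset Module Vale.Agent.P039.Bn

variable {B W V : Type} [Fintype B] [Fintype W] [Fintype V] [DecidableEq B] [DecidableEq W]
  [DecidableEq V]

/-- a function of the whites which agrees on the two sides of all corners is constant -/
theorem white_const {α : Type*} (M : PMap B W V) (hc : M.Conn) (n : W → α)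
    (hn : ∀ j b, n (M.e (j + 1) b) = n (M.e (j + 2) b)) (w w' : W) : n w = n w' := by
  have h2 : ∀ (b : B) j j', n (M.e j b) = n (M.e j' b) := by
    intro b
    have e0 := hn 0 b
    have e1 := hn 1 b
    have e2 := hn 2 b
    simp only [show (0 : Fin 3) + 1 = 1 from rfl, show (0 : Fin 3) + 2 = 2 from rfl,
      show (1 : Fin 3) + 1 = 2 from rfl, show (1 : Fin 3) + 2 = 0 from rfl,
      show (2 : Fin 3) + 1 = 0 from rfl, show (2 : Fin 3) + 2 = 1 from rfl] at e0 e1 e2
    have g : ∀ j, n (M.e j b) = n (M.e 0 b) := by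
      intro j
      fin_cases j
      · rfl
      · exact e2.symm
      · exact e1
    intro j j'
    rw [g j, g j']
  have h3 : ∀ j b b', Relation.EqvGen (fun x y => M.e (j + 1) y = M.e (j + 2) x) b b' →
      n (M.e 0 b) = n (M.e 0 b') := by
    intro j b b' h
    induction h with
    | rel x y h => rw [h2 x 0 (j + 2), h2 y 0 (j + 1), h]
    | refl _ => rfl
    | symm _ _ _ ih => exact ih.symm
    | trans _ _ _ _ _ ih1 ih2 => exact ih1.trans ih2
  have h4 : ∀ b b' : B, Relation.EqvGen (fun x y => ∃ j, M.c j x = M.c j y) b b' →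
      n (M.e 0 b) = n (M.e 0 b') := by
    intro b b' h
    induction h with
    | rel x y h =>
      obtain ⟨j, h⟩ := h
      exact h3 j x y (M.exact j x y h)
    | refl _ => rfl
    | symm _ _ _ ih => exact ih.symm
    | trans _ _ _ _ _ ih1 ih2 => exact ih1.trans ih2
  have := h4 ((M.e 0).symm w) ((M.e 0).symm w') (hc _ _)
  simpa using this

/-- **The inequality** `|I| ≤ E - V + 1` for a proper set `I` of whites and a connected subgraph
(`UJ`, `EJ`) of the corner graph which contains the hexagons around the whites of `I`. -/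
theorem hex_rank (M : PMap B W V) (hc : M.Conn) (I : Finset W) (hI : I ≠ univ)
    (EJ : Finset (B × Fin 3)) (UJ : Finset (B ⊕ V))
    (hE : ∀ q ∈ EJ, Sum.inl q.1 ∈ UJ ∧ Sum.inr (M.c q.2 q.1) ∈ UJ)
    (hI2 : ∀ j b, (M.e (j + 1) b ∈ I ∨ M.e (j + 2) b ∈ I) → (b, j) ∈ EJ)
    (conn : ∀ x ∈ UJ, ∀ y ∈ UJ, Relation.EqvGen
      (fun x y : B ⊕ V => ∃ q ∈ EJ, x = Sum.inl q.1 ∧ y = Sum.inr (M.c q.2 q.1)) x y) :
    I.card + UJ.card ≤ EJ.card + 1 := by
  classical
  let a : EJ → UJ := fun q => ⟨Sum.inl q.1.1, (hE q.1 q.2).1⟩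
  let b : EJ → UJ := fun q => ⟨Sum.inr (M.c q.1.2 q.1.1), (hE q.1 q.2).2⟩
  let D : (I → ZMod 2) →ₗ[ZMod 2] (EJ → ZMod 2) :=
    { toFun := fun x q => ext0 I x (M.e (q.1.2 + 1) q.1.1) + ext0 I x (M.e (q.1.2 + 2) q.1.1)
      map_add' := fun x y => by
        funext q
        simp only [ext0_add, Pi.add_apply]
        ring
      map_smul' := fun c x => by
        funext q
        simp only [ext0_smul, Pi.smul_apply, smul_eq_mul, RingHom.id_apply]
        ring }
  have hDa : ∀ x q, D x q = ext0 I x (M.e (q.1.2 + 1) q.1.1) + ext0 I x (M.e (q.1.2 + 2) q.1.1) :=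
    fun _ _ => rfl
  have hout : ∀ (x : I → ZMod 2) j (b : B), (b, j) ∉ EJ →
      ext0 I x (M.e (j + 1) b) = 0 ∧ ext0 I x (M.e (j + 2) b) = 0 := by
    intro x i b h
    have h1 := not_or.1 fun h' => h (hI2 i b h')
    exact ⟨dif_neg h1.1, dif_neg h1.2⟩
  have hD : Function.Injective D := by
    rw [injective_iff_map_eq_zero]
    intro x hx
    have h1 : ∀ j (b : B), ext0 I x (M.e (j + 1) b) = ext0 I x (M.e (j + 2) b) := by
      intro i b
      by_cases h : (b, i) ∈ EJ
      · have h2 := congrFun hx ⟨(b, i), h⟩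
        rw [hDa] at h2
        simp only [Pi.zero_apply] at h2
        have h3 : ∀ u v : ZMod 2, u + v = 0 → u = v := by decide
        exact h3 _ _ h2
      · rw [(hout x i b h).1, (hout x i b h).2]
    obtain ⟨w0, hw0⟩ : ∃ w, w ∉ I := by
      by_contra hcon
      push Not at hcon
      exact hI (eq_univ_iff_forall.2 hcon)
    funext ⟨w, hw⟩
    have h4 : ext0 I x w = 0 := by
      rw [white_const M hc (fun w => ext0 I x w) h1 w w0]
      exact dif_neg hw0
    unfold ext0 at h4
    rw [dif_pos hw] at h4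
    exact h4
  have hz : ∀ x, bd a b (D x) = 0 := by
    intro x
    funext ⟨u, hu⟩
    have e1 : bd a b (D x) ⟨u, hu⟩ = ∑ q : B × Fin 3,
        (ext0 I x (M.e (q.2 + 1) q.1) + ext0 I x (M.e (q.2 + 2) q.1)) *
          ((if (Sum.inl q.1 : B ⊕ V) = u then 1 else 0) +
            (if (Sum.inr (M.c q.2 q.1) : B ⊕ V) = u then 1 else 0)) := by
      have e2 : ∑ q : B × Fin 3,
          (ext0 I x (M.e (q.2 + 1) q.1) + ext0 I x (M.e (q.2 + 2) q.1)) *
          ((if (Sum.inl q.1 : B ⊕ V) = u then 1 else 0) +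
            (if (Sum.inr (M.c q.2 q.1) : B ⊕ V) = u then 1 else 0)) =
          ∑ q ∈ EJ, (ext0 I x (M.e (q.2 + 1) q.1) + ext0 I x (M.e (q.2 + 2) q.1)) *
          ((if (Sum.inl q.1 : B ⊕ V) = u then 1 else 0) +
            (if (Sum.inr (M.c q.2 q.1) : B ⊕ V) = u then 1 else 0)) := by
        symm
        apply sum_subset (subset_univ _)
        intro q _ hq
        rw [(hout x q.2 q.1 hq).1, (hout x q.2 q.1 hq).2, add_zero, zero_mul]
      rw [e2, ← sum_coe_sort EJ]
      simp only [bd, LinearMap.coe_mk, AddHom.coe_mk]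
      refine sum_congr rfl fun q _ => ?_
      rw [hDa]
      simp only [a, b, Subtype.mk.injEq]
    rw [e1]
    simp only [Pi.zero_apply]
    rcases u with b1 | v1
    · have e3 : ∀ q : B × Fin 3, (if (Sum.inr (M.c q.2 q.1) : B ⊕ V) = Sum.inl b1 then (1 : ZMod 2)
          else 0) = 0 := fun q => if_neg (by simp)
      simp only [e3, add_zero, Sum.inl.injEq]
      rw [Fintype.sum_prod_type]
      rw [sum_eq_single b1]
      · simp only [if_true, mul_one, Fin.sum_univ_three]
        simp only [show (0 : Fin 3) + 1 = 1 from rfl, show (0 : Fin 3) + 2 = 2 from rfl,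
          show (1 : Fin 3) + 1 = 2 from rfl, show (1 : Fin 3) + 2 = 0 from rfl,
          show (2 : Fin 3) + 1 = 0 from rfl, show (2 : Fin 3) + 2 = 1 from rfl]
        generalize ext0 I x (M.e 0 b1) = x0
        generalize ext0 I x (M.e 1 b1) = x1
        generalize ext0 I x (M.e 2 b1) = x2
        revert x0 x1 x2
        decide
      · intro b' _ hb'
        refine sum_eq_zero fun i _ => ?_
        rw [if_neg hb', mul_zero]
      · intro h; exact absurd (mem_univ _) h
    · have e3 : ∀ q : B × Fin 3, (if (Sum.inl q.1 : B ⊕ V) = Sum.inr v1 then (1 : ZMod 2)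
          else 0) = 0 := fun q => if_neg (by simp)
      simp only [e3, zero_add, Sum.inr.injEq]
      rw [Fintype.sum_prod_type, sum_comm]
      refine sum_eq_zero fun j _ => ?_
      have e4 : ∑ b' : B, (ext0 I x (M.e (j + 1) b') + ext0 I x (M.e (j + 2) b')) *
            (if M.c j b' = v1 then 1 else 0) =
          ∑ b' : B, ext0 I x (M.e (j + 1) b') * (if M.c j b' = v1 then 1 else 0) +
          ∑ b' : B, ext0 I x (M.e (j + 2) b') * (if M.c j b' = v1 then 1 else 0) := by
        rw [← sum_add_distrib]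
        exact sum_congr rfl fun _ _ => add_mul _ _ _
      have e5 : ∑ b' : B, ext0 I x (M.e (j + 2) b') * (if M.c j b' = v1 then (1 : ZMod 2) else 0) =
          ∑ b' : B, ext0 I x (M.e (j + 1) b') * (if M.c j b' = v1 then 1 else 0) := by
        rw [← Equiv.sum_comp (M.rho j) (fun b' =>
          ext0 I x (M.e (j + 1) b') * (if M.c j b' = v1 then (1 : ZMod 2) else 0))]
        refine sum_congr rfl fun b' _ => ?_
        rw [M.e_rho, M.c_rho]
      rw [e4, e5]
      have two0 : ∀ z : ZMod 2, z + z = 0 := by decide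
      exact two0 _
  have hconn : ∀ x y : UJ, Relation.EqvGen (fun x y => ∃ e, a e = x ∧ b e = y) x y := by
    rintro ⟨x, hx⟩ ⟨y, hy⟩
    rcases eqvGen_lift _ (fun u => u ∈ UJ) (fun x y h => by
      obtain ⟨q, hq, rfl, rfl⟩ := h
      exact hE q hq) (conn x hx y hy) with h | ⟨_, _, h⟩
    · subst h; exact Relation.EqvGen.refl _
    · refine Relation.EqvGen.mono (fun x y h => ?_) _ _ h
      obtain ⟨q, hq, h1, h2⟩ := h
      exact ⟨⟨q, hq⟩, Subtype.ext h1.symm, Subtype.ext h2.symm⟩
  have := cyc_rank a b hconn D hD hz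
  simpa using this

end Vale.Agent.P039.H84
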