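import Vale.Agent.P039.H545.Four

/-! STEP 4 with a prescribed value at a black vertex whose cycle has a forced orientation
(helper84; after helper356's and helper545's proof of STEP 4). -/

set_option linter.all false

open Finset

namespace Vale.Agent.P039.H84

open H545

variable {B V : Type*} {F : B → Fin 3 → Option V} {f g : B → Fin 3}

theorem minInv_symm {C : Finset B} (h : MinInv F f g C) : MinInv F g f C :=
  ⟨h.1, h.2.1.symm, fun T hT hne hI => h.2.2 T hT hne hI.symm⟩

variable [DecidableEq B] [Fintype B]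

theorem one_factor (u : B → Fin 3 → ℝ) (t : ℝ) (C : Finset B) (hodd : Odd C.card)
    (hpos : 0 < (-1 : ℝ) ^ ((C.card + 1) / 2) * ((∏ b ∈ C, eps (g b - f b) : ℤ) : ℝ) *
      ∑ b ∈ C, (u b (f b) - u b (g b))) {s0 : ℝ} (hs0 : s0 = 1 ∨ s0 = -1)
    (h0 : 0 < s0 * ∑ b ∈ C, (u b (f b) - u b (g b))) :
    ∏ b ∈ C, wt u t b (f b) (g b) = (-(s0 : ℂ) * Complex.I) *
      Complex.exp (Complex.I * ((t * ∑ b ∈ C, u b (f b) : ℝ) : ℂ)) := by
  obtain ⟨j, hj⟩ := hodd
  set P : ℤ := ∏ b ∈ C, eps (g b - f b) with hP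
  have hI : (Complex.I) ^ C.card = (-1) ^ j * Complex.I := by
    rw [hj, pow_succ, pow_mul, Complex.I_sq]
  have h1 : ∏ b ∈ C, wt u t b (f b) (g b) =
      (-1) ^ j * Complex.I * (P : ℂ) *
        Complex.exp (Complex.I * ((t * ∑ b ∈ C, u b (f b) : ℝ) : ℂ)) := by
    unfold wt
    rw [prod_mul_distrib, prod_mul_distrib, prod_const, hI, ← Complex.exp_sum, ← mul_sum]
    congr 2
    · rw [hP]; push_cast; rfl
    · push_cast; simp only [mul_sum]
  rw [hj, show (2 * j + 1 + 1) / 2 = j + 1 by omega] at hpos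
  have hs : (-1 : ℝ) ^ (j + 1) * (P : ℝ) = 1 ∨ (-1 : ℝ) ^ (j + 1) * (P : ℝ) = -1 := by
    rcases prod_eps C (fun b => g b - f b) with h | h <;>
      rcases neg_one_pow_eq_or ℝ (j + 1) with h' | h' <;> rw [← hP] at h <;> rw [h, h'] <;> simp
  have hs1 : (-1 : ℝ) ^ (j + 1) * (P : ℝ) = s0 := by
    rcases hs with hs | hs <;> rcases hs0 with h' | h' <;> rw [hs] at hpos <;> rw [h'] at h0 <;>
      rw [hs, h'] <;> linarith
  have hs' : (-1 : ℂ) ^ j * (P : ℂ) = -(s0 : ℂ) := by
    rw [← hs1]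
    push_cast
    ring
  rw [h1, ← hs']
  ring

open Classical in
/-- STEP 4 with a prescribed value at `b1`. -/
theorem fourK (F : B → Fin 3 → Option V) (u : B → Fin 3 → ℝ)
    (hcyc : ∀ f g, Mat F f → Mat F g → Disj f g → ∀ C, MinInv F f g C → Odd C.card ∧
      0 < (-1 : ℝ) ^ ((C.card + 1) / 2) * ((∏ b ∈ C, eps (g b - f b) : ℤ) : ℝ) *
        ∑ b ∈ C, (u b (f b) - u b (g b)))
    (b1 : B) (j : Fin 3) {s0 : ℝ} (hs0 : s0 = 1 ∨ s0 = -1)
    (hor : ∀ f g, Mat F f → Mat F g → Disj f g → f b1 = j → ∀ C, MinInv F f g C → b1 ∈ C →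
      0 < s0 * ∑ b ∈ C, (u b (f b) - u b (g b)))
    (h2 : ∀ f g, Mat F f → Mat F g → Disj f g → f b1 = j ∨ g b1 = j)
    (hex : ∃ f g, Mat F f ∧ Mat F g ∧ Disj f g) :
    ∃ f, Mat F f ∧ f b1 = j ∧ ∑ g ∈ univ.filter (fun g => Mat F g ∧ Disj f g), sg f g ≠ 0 := by
  by_contra hcon
  push Not at hcon
  set M : ℝ := 1 + ∑ b, ∑ c, |u b c| with hM
  have hM0 : 0 < M := by
    have : 0 ≤ ∑ b, ∑ c, |u b c| := sum_nonneg fun _ _ => sum_nonneg fun _ _ => abs_nonneg _
    linarith
  set t : ℝ := M⁻¹ with ht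
  have ht0 : 0 < t := inv_pos.2 hM0
  have htM : t * M = 1 := inv_mul_cancel₀ hM0.ne'
  obtain ⟨wk, hwk⟩ : ∃ wk : B → Fin 3 → Fin 3 → ℂ, ∀ b c d,
      wk b c d = if b = b1 ∧ c ≠ j then 0 else wt u t b c d := ⟨_, fun _ _ _ => rfl⟩
  set X : (B → Fin 3) → (B → Fin 3) → ℂ := fun f g => ∏ b, wk b (f b) (g b) with hX
  -- the sum vanishes
  have hW0 : ∑ p ∈ prs F, X p.1 p.2 = 0 := by
    have e := sum_finset_product' (prs F) (univ.filter (Mat F))
      (fun f => univ.filter (fun g => Mat F g ∧ Disj f g)) (fun p => by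
        rw [mem_prs]; simp) (f := X)
    rw [e]
    refine sum_eq_zero fun f hf => ?_
    have hf' : Mat F f := by simpa using hf
    by_cases hfj : f b1 = j
    · have h0 := hcon f hf' hfj
      have h1 : ∀ g, X f g =
          (∏ b, (Complex.I * Complex.exp (Complex.I * ((t * u b (f b) : ℝ) : ℂ)))) *
          ((sg f g : ℤ) : ℂ) := by
        intro g
        simp only [hX, sg]
        rw [Int.cast_prod, ← prod_mul_distrib]
        refine prod_congr rfl fun b _ => ?_
        rw [hwk, if_neg (by rintro ⟨rfl, h⟩; exact h hfj)]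
        unfold wt
        ring
      simp_rw [h1]
      rw [← mul_sum, ← Int.cast_sum, h0]
      simp
    · refine sum_eq_zero fun g _ => ?_
      simp only [hX]
      exact prod_eq_zero (mem_univ b1) (by rw [hwk, if_pos ⟨rfl, hfj⟩])
  -- the sum is positive
  have hav := average (F := F) X
  rw [hW0] at hav
  have hterm : ∀ p ∈ prs F, ∃ r θ : ℝ, 0 < r ∧ |θ| ≤ 1 ∧
      ((invs F p.1 p.2).card : ℂ)⁻¹ *
        ∑ T ∈ invs F p.1 p.2, X (flipL p.1 p.2 T) (flipL p.2 p.1 T) =
        (-(s0 : ℂ) * Complex.I) * ((r : ℂ) * Complex.exp (Complex.I * (θ : ℂ))) := by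
    rintro ⟨f, g⟩ hp
    rw [mem_prs] at hp
    obtain ⟨hf, hg, hd⟩ := hp
    simp only at hf hg hd ⊢
    have e1 : ∀ T, X (flipL f g T) (flipL g f T) =
        ∏ b, (if b ∈ T then wk b (g b) (f b) else wk b (f b) (g b)) := by
      intro T
      simp only [hX]
      refine prod_congr rfl fun b _ => ?_
      by_cases hb : b ∈ T <;> simp [flipL, hb]
    simp_rw [e1]
    rw [H545.sum_flip]
    set q1 : Cyc F f g := Quotient.mk (cyc F f g) b1 with hq1
    have hb1 : b1 ∈ cset q1 := by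
      unfold cset
      exact mem_filter.2 ⟨mem_univ _, rfl⟩
    have hne1 : ∀ q : Cyc F f g, q ≠ q1 → b1 ∉ cset q := by
      intro q hq h
      apply hq
      exact (mem_filter.1 h).2.symm
    have e2 : ∀ q : Cyc F f g, q ≠ q1 → (∏ b ∈ cset q, wk b (g b) (f b) +
        ∏ b ∈ cset q, wk b (f b) (g b)) =
        ((2 * Real.sin (t * |∑ b ∈ cset q, (u b (f b) - u b (g b))| / 2) : ℝ) : ℂ) *
        Complex.exp (Complex.I * ((t * (∑ b ∈ cset q, (u b (f b) + u b (g b))) / 2 : ℝ) : ℂ)) := by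
      intro q hq
      obtain ⟨ho, hq'⟩ := hcyc f g hf hg hd (cset q) (cset_minInv q)
      rw [← factor u t (cset q) hd ho hq']
      have hw : ∀ b ∈ cset q, ∀ c d, wk b c d = wt u t b c d := by
        intro b hb c d
        rw [hwk, if_neg]
        rintro ⟨rfl, -⟩
        exact hne1 q hq hb
      rw [prod_congr rfl fun b hb => hw b hb _ _, prod_congr rfl fun b hb => hw b hb _ _]
    -- the cycle through `b1`
    obtain ⟨a1, ha1, e3⟩ : ∃ a1 : ℝ, |a1| ≤ ∑ b ∈ cset q1, (|u b (f b)| + |u b (g b)|) ∧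
        (∏ b ∈ cset q1, wk b (g b) (f b) + ∏ b ∈ cset q1, wk b (f b) (g b)) =
        (-(s0 : ℂ) * Complex.I) * Complex.exp (Complex.I * ((t * a1 : ℝ) : ℂ)) := by
      have hmin := cset_minInv q1
      rcases h2 f g hf hg hd with h | h
      · refine ⟨∑ b ∈ cset q1, u b (f b), ?_, ?_⟩
        · refine (abs_sum_le_sum_abs _ _).trans (sum_le_sum fun b _ => ?_)
          have := abs_nonneg (u b (g b))
          linarith
        · obtain ⟨ho, hq'⟩ := hcyc f g hf hg hd _ hmin
          have h3 := one_factor u t (cset q1) ho hq' hs0 (hor f g hf hg hd h _ hmin hb1)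
          rw [← h3]
          have h4 : ∏ b ∈ cset q1, wk b (g b) (f b) = 0 :=
            prod_eq_zero hb1 (by rw [hwk, if_pos ⟨rfl, fun h' => hd b1 (h.trans h'.symm)⟩])
          rw [h4, zero_add]
          refine prod_congr rfl fun b _ => ?_
          rw [hwk, if_neg]
          rintro ⟨rfl, h'⟩
          exact h' h
      · refine ⟨∑ b ∈ cset q1, u b (g b), ?_, ?_⟩
        · refine (abs_sum_le_sum_abs _ _).trans (sum_le_sum fun b _ => ?_)
          have := abs_nonneg (u b (f b))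
          linarith
        · have hd' : Disj g f := fun b => (hd b).symm
          obtain ⟨ho, hq'⟩ := hcyc g f hg hf hd' _ (minInv_symm hmin)
          have h3 := one_factor u t (cset q1) ho hq' hs0
            (hor g f hg hf hd' h _ (minInv_symm hmin) hb1)
          rw [← h3]
          have h4 : ∏ b ∈ cset q1, wk b (f b) (g b) = 0 :=
            prod_eq_zero hb1 (by rw [hwk, if_pos ⟨rfl, fun h' => hd b1 (h'.trans h.symm)⟩])
          rw [h4, add_zero]
          refine prod_congr rfl fun b _ => ?_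
          rw [hwk, if_neg]
          rintro ⟨rfl, h'⟩
          exact h' h
    rw [← mul_prod_erase univ _ (mem_univ q1), e3,
      prod_congr rfl fun q hq => e2 q (mem_erase.1 hq).1]
    rw [prod_mul_distrib, ← Complex.exp_sum, ← mul_sum]
    have hle : ∀ b, |u b (f b)| + |u b (g b)| ≤ ∑ c, |u b c| := by
      intro b
      have h7 : ∑ c ∈ ({f b, g b} : Finset (Fin 3)), |u b c| ≤ ∑ c, |u b c| :=
        sum_le_sum_of_subset_of_nonneg (subset_univ _) fun _ _ _ => abs_nonneg _
      rwa [sum_pair (hd b)] at h7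
    have hbd : ∀ S : Finset B, ∑ b ∈ S, (|u b (f b)| + |u b (g b)|) ≤ M := by
      intro S
      calc ∑ b ∈ S, (|u b (f b)| + |u b (g b)|) ≤ ∑ b, (|u b (f b)| + |u b (g b)|) :=
            sum_le_sum_of_subset_of_nonneg (subset_univ _) fun _ _ _ => by positivity
        _ ≤ ∑ b, ∑ c, |u b c| := sum_le_sum fun b _ => hle b
        _ ≤ M := by rw [hM]; linarith
    have hfib : ∑ q : Cyc F f g, ∑ b ∈ cset q, (|u b (f b)| + |u b (g b)|) =
        ∑ b, (|u b (f b)| + |u b (g b)|) :=
      sum_fiberwise univ (fun b => (Quotient.mk (cyc F f g) b : Cyc F f g))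
        (fun b => |u b (f b)| + |u b (g b)|)
    refine ⟨((invs F f g).card : ℝ)⁻¹ *
      ∏ q ∈ univ.erase q1, (2 * Real.sin (t * |∑ b ∈ cset q, (u b (f b) - u b (g b))| / 2)),
      t * a1 + ∑ q ∈ univ.erase q1, t * (∑ b ∈ cset q, (u b (f b) + u b (g b))) / 2, ?_, ?_, ?_⟩
    · have hc := invs_card_pos F f g
      refine mul_pos (inv_pos.2 (by exact_mod_cast hc)) (prod_pos fun q _ => ?_)
      refine mul_pos two_pos (Real.sin_pos_of_pos_of_lt_pi ?_ ?_)
      · obtain ⟨ho, hq⟩ := hcyc f g hf hg hd (cset q) (cset_minInv q)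
        have hne : ∑ b ∈ cset q, (u b (f b) - u b (g b)) ≠ 0 := by
          intro h8
          rw [h8, mul_zero] at hq
          exact lt_irrefl _ hq
        have := abs_pos.2 hne
        positivity
      · have h9 : |∑ b ∈ cset q, (u b (f b) - u b (g b))| ≤ M := by
          refine (abs_sum_le_sum_abs _ _).trans (le_trans (sum_le_sum fun b _ => ?_) (hbd _))
          exact abs_sub _ _
        have h10 : t * |∑ b ∈ cset q, (u b (f b) - u b (g b))| ≤ 1 := by
          rw [← htM]; exact mul_le_mul_of_nonneg_left h9 ht0.le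
        have := Real.pi_gt_three
        linarith
    · have h9 : |t * a1 + ∑ q ∈ univ.erase q1,
          t * (∑ b ∈ cset q, (u b (f b) + u b (g b))) / 2| ≤
          t * ∑ b ∈ cset q1, (|u b (f b)| + |u b (g b)|) +
          ∑ q ∈ univ.erase q1, t * ∑ b ∈ cset q, (|u b (f b)| + |u b (g b)|) := by
        refine (abs_add_le _ _).trans (add_le_add ?_ ?_)
        · rw [abs_mul, abs_of_pos ht0]
          exact mul_le_mul_of_nonneg_left ha1 ht0.le
        · refine (abs_sum_le_sum_abs _ _).trans (sum_le_sum fun q _ => ?_)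
          rw [abs_div, abs_mul, abs_of_pos ht0, abs_two]
          have h11 : |∑ b ∈ cset q, (u b (f b) + u b (g b))| ≤
              ∑ b ∈ cset q, (|u b (f b)| + |u b (g b)|) :=
            (abs_sum_le_sum_abs _ _).trans (sum_le_sum fun b _ => abs_add_le _ _)
          have h12 := abs_nonneg (∑ b ∈ cset q, (u b (f b) + u b (g b)))
          have h13 : t * |∑ b ∈ cset q, (u b (f b) + u b (g b))| ≤
              t * ∑ b ∈ cset q, (|u b (f b)| + |u b (g b)|) :=
            mul_le_mul_of_nonneg_left h11 ht0.le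
          have h14 : 0 ≤ t * |∑ b ∈ cset q, (u b (f b) + u b (g b))| := by positivity
          linarith
      refine h9.trans ?_
      rw [← mul_sum, ← mul_add, add_sum_erase univ
        (fun q : Cyc F f g => ∑ b ∈ cset q, (|u b (f b)| + |u b (g b)|)) (mem_univ q1), hfib]
      rw [← htM]
      exact mul_le_mul_of_nonneg_left (hbd univ) ht0.le
    · push_cast
      rw [mul_add, Complex.exp_add]
      ring
  choose! r θ hr hθ hrw using hterm
  rw [sum_congr rfl hrw, ← mul_sum] at hav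
  have hs00 : (-(s0 : ℂ) * Complex.I) ≠ 0 := by
    refine mul_ne_zero (neg_ne_zero.2 ?_) Complex.I_ne_zero
    rcases hs0 with h | h <;> rw [h] <;> norm_num
  have hav2 := (mul_eq_zero.1 hav.symm).resolve_left hs00
  have hre := congrArg Complex.re hav2
  rw [Complex.zero_re, Complex.re_sum] at hre
  have hre2 : ∀ p ∈ prs F, 0 < ((r p : ℂ) * Complex.exp (Complex.I * (θ p : ℂ))).re := by
    intro p hp
    rw [Complex.re_ofReal_mul, mul_comm Complex.I, Complex.exp_ofReal_mul_I_re]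
    refine mul_pos (hr p hp) (Real.cos_pos_of_mem_Ioo ⟨?_, ?_⟩)
    · have := (abs_le.1 (hθ p hp)).1
      have := Real.pi_gt_three
      linarith
    · have := (abs_le.1 (hθ p hp)).2
      have := Real.pi_gt_three
      linarith
  obtain ⟨f, g, hf, hg, hd⟩ := hex
  have : 0 < ∑ p ∈ prs F, ((r p : ℂ) * Complex.exp (Complex.I * (θ p : ℂ))).re :=
    sum_pos hre2 ⟨(f, g), mem_prs.2 ⟨hf, hg, hd⟩⟩
  linarith

end Vale.Agent.P039.H84
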