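import Vale.Agent.P039.H84.K1
import Vale.Agent.P039.H545.Abs
import Vale.Agent.P039.Bt.H668.CycS

/-! The orientation of the cycle through a black vertex on a root face is forced; good matchings
with a prescribed value at such a vertex (helper84). -/

set_option linter.all false

namespace Vale.Agent.P039.H84

open Finset Vale.Agent.P039.Bn

section PM

variable {B W V : Type} [Fintype B] [Fintype W] [Fintype V] [DecidableEq B] [DecidableEq W]
  [DecidableEq V] (M : PMap B W V)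

theorem third_eq : ∀ {x y z : Fin 3}, z ≠ x → z ≠ y → x ≠ y → -(x + y) = z := by decide

/-- around a root face the 2-chain of a cycle is constant -/
theorem root_const {f g : B → Fin 3} {S : Finset B} {nx : B → B} {b0 : B}
    (ha : M.IsAlt f g S nx) (hb0 : b0 ∉ S) (hg : M.IsMatch b0 g) {n : W → ℤ}
    (hn : H443.bd M.e n = H443.chain S f g) {j0 : Fin 3} {b1 : B}
    (h : M.c j0 b1 = M.c j0 b0) : n (M.e (j0 + 1) b1) = n (M.e (j0 + 1) b0) := by
  have hroot : ∀ b ∈ S, M.c (g b) b ≠ M.c j0 b0 := fun b hb =>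
    hg.avoid b (fun h' => hb0 (h' ▸ hb)) j0
  have h1 : ∀ b, M.c j0 b = M.c j0 b0 → n (M.e (j0 + 1) b) = n (M.e (j0 + 2) b) := by
    intro b hb
    have h2 := congrFun (congrFun hn b) j0
    unfold H443.bd H443.chain at h2
    rw [← sub_eq_zero, h2]
    by_cases hS : b ∈ S
    · rw [if_pos hS, if_neg, if_neg, sub_zero]
      · rintro rfl
        exact hroot b hS hb
      · rintro rfl
        apply hroot (nx b) (ha.maps b hS)
        rw [← ha.face b hS, hb]
    · rw [if_neg hS]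
  have h2 : ∀ x y, Relation.EqvGen (fun x y => M.e (j0 + 1) y = M.e (j0 + 2) x) x y →
      M.c j0 x = M.c j0 b0 → n (M.e (j0 + 1) x) = n (M.e (j0 + 1) y) := by
    intro x y hxy
    induction hxy with
    | rel x y hr =>
      intro hx
      rw [h1 x hx, hr]
    | refl _ => intro _; rfl
    | symm x y hr ih =>
      intro hy
      have : M.c j0 x = M.c j0 b0 := by rw [M.c_of_eqvGen hr, hy]
      exact (ih this).symm
    | trans x y z hr1 hr2 ih1 ih2 =>
      intro hx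
      have : M.c j0 y = M.c j0 b0 := by rw [← M.c_of_eqvGen hr1, hx]
      exact (ih1 hx).trans (ih2 this)
  exact h2 b1 b0 (M.exact j0 b1 b0 h) h

theorem cyc_pmapK (hS : M.Sph) (b0 : B) :
    ∃ u : B → Fin 3 → ℤ, ∀ (f g : B → Fin 3) (S : Finset B) (nx : B → B), M.IsAlt f g S nx →
      b0 ∉ S → M.IsMatch b0 g →
      (Odd S.card ∧ 3 ≤ S.card ∧
      0 < (-1) ^ ((S.card - 3) / 2) * (∏ b ∈ S, H443.eps (g b - f b)) *
        ∑ b ∈ S, (u b (f b) - u b (g b))) ∧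
      ∀ b1 ∈ S, ∀ j0, j0 ≠ f b1 → j0 ≠ g b1 → M.c j0 b1 = M.c j0 b0 →
        0 < H443.eps (g b1 - f b1) * ∑ b ∈ S, (u b (f b) - u b (g b)) := by
  obtain ⟨u, hu⟩ := H443.exists_u_pmap M hS.conn (M.e 0 b0)
  refine ⟨u, fun f g S nx ha hb0 hg => ?_⟩
  obtain ⟨n, s, R, h0⟩ := H443.region_of M (PMap.t1 M) (PMap.t2 M) hS ha hb0 hg
  refine ⟨H443.cyc M.e R ha.ne hu, fun b1 hb1 j0 hj1 hj2 hF => ?_⟩
  have hth : H443.third f g b1 = j0 := third_eq hj1 hj2 (ha.ne b1 hb1)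
  have heps := H443.eps_eq M.e R.hn R.hs1 R.hs hb1 (ha.ne b1 hb1)
  have hzero : n (M.e (j0 + 1) b1) = 0 := by
    rw [root_const M ha hb0 hg R.hn hF]
    exact h0 _
  rw [hth, if_pos hzero] at heps
  have hu' : ∀ w, w ≠ M.e 0 b0 → H443.cobd M.e (fun b c => -u b c) w = 1 := by
    intro w hw
    have h1 : H443.cobd M.e (fun b c => -u b c) w = -H443.cobd M.e u w := by
      rw [H443.cobd, H443.cobd, ← Finset.sum_neg_distrib]
      exact Finset.sum_congr rfl fun i _ => by ring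
    rw [h1, hu w hw, neg_neg]
  have hA := H443.flux M.e R.hn R.hs R.h0 hu'
  have hA' : ∑ b ∈ S, (u b (f b) - u b (g b)) =
      -(s * ((univ.filter fun w => n w ≠ 0).card : ℤ)) := by
    rw [← hA, ← Finset.sum_neg_distrib]
    exact Finset.sum_congr rfl fun b _ => by ring
  have hpos : 0 < ((univ.filter fun w => n w ≠ 0).card : ℤ) := by
    obtain ⟨w, hw⟩ := R.hne
    exact_mod_cast Finset.card_pos.2 ⟨w, by simpa using hw⟩
  rw [heps, hA']
  have h2 : s * s = 1 := by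
    rcases R.hs1 with h | h <;> rw [h] <;> norm_num
  generalize ((univ.filter fun w => n w ≠ 0).card : ℤ) = a at *
  have : -s * -(s * a) = s * s * a := by ring
  rw [this, h2, one_mul]
  exact hpos

end PM

/-! ### the abstract form -/

section Abs

variable {B W V : Type} [Fintype B] [Fintype W] [Fintype V]

open Classical H545 in
/-- nonzero signed count gives good -/
theorem good_of {B V : Type} [Fintype B] [Fintype V] [DecidableEq B] [DecidableEq V]
    {F : B → Fin 3 → Option V} {cl : V → Fin 3} (hcl : Bz.Classes F cl)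
    (hcard : Fintype.card B = Fintype.card V)
    (hodd : ∀ (f g : B → Fin 3) (φ ψ : B ≃ V), (∀ b, F b (f b) = some (φ b)) →
      (∀ b, F b (g b) = some (ψ b)) → Bz.Disj f g → ∀ (C : Finset B) (b₁ : B),
      (∀ b, b ∈ C ↔ Equiv.Perm.SameCycle (φ.trans ψ.symm) b₁ b) → Odd C.card)
    {f : B → Fin 3} {φ : B ≃ V} (hφ : ∀ b, F b (f b) = some (φ b))
    (hne : (∑ g ∈ (Finset.univ.filter (fun g => H545.Mat F g ∧ H545.Disj f g) : Finset (B → Fin 3)),
      H545.sg f g) ≠ 0) : Bz.Good F f := by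
  classical
  intro K hK
  have hs : ∀ (g : B → Fin 3) (ψ : B ≃ V), (∀ b, F b (g b) = some (ψ b)) → (∀ b, g b ≠ f b) →
      ∀ c ∈ Equiv.Perm.cycleFactorsFinset (φ.trans ψ.symm), Odd (Equiv.Perm.support c).card := by
    intro g ψ hψ hd c hc
    obtain ⟨b₁, hb₁⟩ := (Equiv.Perm.mem_cycleFactorsFinset_iff.1 hc).1.nonempty_support
    have e1 : c = Equiv.Perm.cycleOf (φ.trans ψ.symm) b₁ := Equiv.Perm.cycle_is_cycleOf hb₁ hc
    exact hodd f g φ ψ hφ hψ (fun b => (hd b).symm) (Equiv.Perm.support c) b₁ (by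
      intro b
      have hb₂ : b₁ ∈ Equiv.Perm.support (φ.trans ψ.symm) :=
        Equiv.Perm.mem_cycleFactorsFinset_support_le hc hb₁
      rw [e1, Equiv.Perm.mem_support_cycleOf_iff]
      exact ⟨fun h => h.1, fun h => ⟨h, hb₂⟩⟩)
  have h0 : ∑ g ∈ univ.filter (Vale.P039.H788.IsMat F), ∏ b, Vale.P039.H788.eps (g b - f b) ≠ 0 := by
    intro h
    apply hne
    rw [← h]
    refine sum_subset_zero_on_sdiff (fun g hg => ?_) (fun g hg => ?_) (fun g hg => ?_)
    · obtain ⟨h1, h2⟩ := (mem_filter.1 hg).2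
      exact mem_filter.2 ⟨mem_univ _, of_mat hcard h1⟩
    · obtain ⟨h1, h2⟩ := mem_sdiff.1 hg
      obtain ⟨ψ, hψ⟩ := (mem_filter.1 h1).2
      have h3 : ¬ H545.Disj f g := fun h4 => h2 (mem_filter.2 ⟨mem_univ _, mat_of hψ, h4⟩)
      unfold H545.Disj at h3
      push Not at h3
      obtain ⟨b, hb⟩ := h3
      exact prod_eq_zero (mem_univ b) (by rw [hb, sub_self]; rfl)
    · obtain ⟨h1, h2⟩ := (mem_filter.1 hg).2
      exact prod_congr rfl fun b _ => eps_788 (sub_ne_zero.2 (h2 b).symm)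
  obtain ⟨b, hb⟩ := Vale.P039.H788.step3 hcl hφ hs h0 hK
  by_cases h1 : ∃ v ∈ K, F b (f b + 1) = some v
  · by_cases h2 : ∃ v ∈ K, F b (f b + 2) = some v
    · exact absurd (iff_of_true h1 h2) hb
    · push Not at h2
      refine ⟨b, f b + 1, f b + 2, ?_, ?_, h1, h2⟩
      · generalize f b = a; revert a; decide
      · generalize f b = a; revert a; decide
  · by_cases h2 : ∃ v ∈ K, F b (f b + 2) = some v
    · push Not at h1
      refine ⟨b, f b + 2, f b + 1, ?_, ?_, h2, h1⟩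
      · generalize f b = a; revert a; decide
      · generalize f b = a; revert a; decide
    · exact absurd (iff_of_false h1 h2) hb

theorem fin3_two : ∀ {x y j j0 : Fin 3}, x ≠ y → x ≠ j0 → y ≠ j0 → j ≠ j0 → x = j ∨ y = j := by
  decide

theorem eps_545_443 (x : Fin 3) : H545.eps x = H443.eps x := rfl

/-- **Good matchings with a prescribed value at a black vertex on a root face.** -/
theorem good_at (M : PMap B W V) (hS : M.Sph) (b0 b1 : B) (hb : b1 ≠ b0) (j0 j : Fin 3)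
    (hj : j ≠ j0) (hF : M.c j0 b1 = M.c j0 b0)
    (hex : ∃ f g, Bz.Mat (Bz.Fo M b0) f ∧ Bz.Mat (Bz.Fo M b0) g ∧ Bz.Disj f g) :
    ∃ f, Bz.Mat (Bz.Fo M b0) f ∧ Bz.Good (Bz.Fo M b0) f ∧ f ⟨b1, hb⟩ = j := by
  classical
  obtain ⟨u, hu⟩ := cyc_pmapK M hS b0
  obtain ⟨f₀, g₀, ⟨φ₀, hφ₀⟩, ⟨ψ₀, hψ₀⟩, hd₀⟩ := hex
  have hcard : Fintype.card (Bz.BOff b0) = Fintype.card (Bz.VOff M b0) := Fintype.card_congr φ₀
  set F := Bz.Fo M b0 with hFdef
  set ur : Bz.BOff b0 → Fin 3 → ℝ := fun b c => (u b.1 c : ℝ) with hur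
  -- the two properties for a cycle
  have key : ∀ (f g : Bz.BOff b0 → Fin 3) (φ ψ : Bz.BOff b0 ≃ Bz.VOff M b0),
      (∀ b, F b (f b) = some (φ b)) → (∀ b, F b (g b) = some (ψ b)) → Bz.Disj f g →
      ∀ (C : Finset (Bz.BOff b0)) (b₁ : Bz.BOff b0),
      (∀ b, b ∈ C ↔ Equiv.Perm.SameCycle (φ.trans ψ.symm) b₁ b) →
      (Odd C.card ∧ 0 < (-1 : ℝ) ^ ((C.card + 1) / 2) *
        ((∏ b ∈ C, H545.eps (g b - f b) : ℤ) : ℝ) * ∑ b ∈ C, (ur b (f b) - ur b (g b))) ∧
      ∀ b ∈ C, j0 ≠ f b → j0 ≠ g b → M.c j0 b.1 = M.c j0 b0 →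
        0 < ((H545.eps (g b - f b) : ℤ) : ℝ) * ∑ b ∈ C, (ur b (f b) - ur b (g b)) := by
    intro f g φ ψ hφ hψ hd C b₁ hC
    obtain ⟨⟨⟨k, hk⟩, h3, hpos⟩, hor⟩ := hu _ _ _ _ (Bt.H668.isAlt_ex hφ hψ hd hC) (by
      rw [mem_map]
      rintro ⟨x, -, hx⟩
      exact x.2 hx) (Bt.H668.isMatch_ex hψ)
    rw [card_map] at hk h3 hpos
    rw [prod_map, sum_map] at hpos
    rw [sum_map] at hor
    have e2 : ∏ x ∈ C, H443.eps (Bt.H668.ex b0 g ((Function.Embedding.subtype _) x) -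
        Bt.H668.ex b0 f ((Function.Embedding.subtype _) x)) = ∏ b ∈ C, H545.eps (g b - f b) := by
      refine prod_congr rfl fun x _ => ?_
      show H443.eps (Bt.H668.ex b0 g x.1 - Bt.H668.ex b0 f x.1) = _
      rw [Bt.H668.ex_apply, Bt.H668.ex_apply]
      rfl
    have e3 : ∑ x ∈ C, (u ((Function.Embedding.subtype _) x)
          (Bt.H668.ex b0 f ((Function.Embedding.subtype _) x)) -
        u ((Function.Embedding.subtype _) x) (Bt.H668.ex b0 g ((Function.Embedding.subtype _) x))) =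
        ∑ b ∈ C, (u b.1 (f b) - u b.1 (g b)) := by
      refine sum_congr rfl fun x _ => ?_
      show u x.1 (Bt.H668.ex b0 f x.1) - u x.1 (Bt.H668.ex b0 g x.1) = _
      rw [Bt.H668.ex_apply, Bt.H668.ex_apply]
    rw [e2, e3] at hpos
    rw [e3] at hor
    have e4 : ((∑ b ∈ C, (u b.1 (f b) - u b.1 (g b)) : ℤ) : ℝ) =
        ∑ b ∈ C, (ur b (f b) - ur b (g b)) := by
      rw [hur]; push_cast; rfl
    refine ⟨⟨⟨k, hk⟩, ?_⟩, ?_⟩
    · have e1 : (C.card + 1) / 2 = (C.card - 3) / 2 + 2 := by omega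
      have h4 : (0 : ℝ) < (((-1 : ℤ) ^ ((C.card - 3) / 2) * (∏ b ∈ C, H545.eps (g b - f b)) *
          ∑ b ∈ C, (u b.1 (f b) - u b.1 (g b)) : ℤ) : ℝ) := by exact_mod_cast hpos
      rw [Int.cast_mul, e4] at h4
      rw [e1, pow_add]
      have e5 : (-1 : ℝ) ^ 2 = 1 := by norm_num
      rw [e5, mul_one]
      rw [Int.cast_mul, Int.cast_pow] at h4
      simpa using h4
    · intro b hbC h1 h2 h5
      have h6 := hor b.1 (mem_map.2 ⟨b, hbC, rfl⟩) j0 (by rw [Bt.H668.ex_apply]; exact h1)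
        (by rw [Bt.H668.ex_apply]; exact h2) h5
      rw [Bt.H668.ex_apply, Bt.H668.ex_apply] at h6
      have h7 : (0 : ℝ) < ((H443.eps (g b - f b) * ∑ b ∈ C, (u b.1 (f b) - u b.1 (g b)) : ℤ) : ℝ) := by
        exact_mod_cast h6
      rw [Int.cast_mul, e4] at h7
      exact h7
  set b1' : Bz.BOff b0 := ⟨b1, hb⟩ with hb1'
  have hnone : F b1' j0 = none := by
    rw [hFdef]
    unfold Bz.Fo
    rw [dif_neg]
    intro h
    exact h j0 hF.symm
  have hno : ∀ f, H545.Mat F f → f b1' ≠ j0 := by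
    intro f hf h
    apply hf.1 b1'
    rw [h, hnone]
  have hs0 : ∃ s0 : ℝ, (s0 = 1 ∨ s0 = -1) ∧ s0 = ((H545.eps (-(j + j0) - j) : ℤ) : ℝ) := by
    refine ⟨_, ?_, rfl⟩
    unfold H545.eps
    split_ifs <;> simp
  obtain ⟨s0, hs0, hs0'⟩ := hs0
  obtain ⟨f, hf, hfj, hne⟩ := fourK F ur (by
      intro f g hf hg hd C hC
      obtain ⟨φ, hφ⟩ := H545.of_mat hcard hf
      obtain ⟨ψ, hψ⟩ := H545.of_mat hcard hg
      obtain ⟨b₁, hb₁⟩ := hC.1
      exact (key f g φ ψ hφ hψ hd C b₁ (H545.minInv_sameCycle hφ hψ hC hb₁)).1) b1' j hs0 (by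
      intro f g hf hg hd hfj C hC hbC
      obtain ⟨φ, hφ⟩ := H545.of_mat hcard hf
      obtain ⟨ψ, hψ⟩ := H545.of_mat hcard hg
      have h1 := (key f g φ ψ hφ hψ hd C b1' (H545.minInv_sameCycle hφ hψ hC hbC)).2 b1' hbC
        (hno f hf).symm (hno g hg).symm hF
      have h2 : g b1' = -(j + j0) := by
        symm
        apply third_eq
        · rw [← hfj]; exact (hd b1').symm
        · exact hno g hg
        · exact hj
      rw [h2, hfj, ← hs0'] at h1
      exact h1) (by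
      intro f g hf hg hd
      exact fin3_two (hd b1') (hno f hf) (hno g hg) hj)
    ⟨f₀, g₀, H545.mat_of hφ₀, H545.mat_of hψ₀, hd₀⟩
  obtain ⟨φ, hφ⟩ := H545.of_mat hcard hf
  refine ⟨f, ⟨φ, hφ⟩, ?_, hfj⟩
  refine good_of (cl := fun v => (M.surj v.1).choose) ?_ hcard ?_ hφ ?_
  · intro b j v h
    have h1 := Bt.H668.Fo_eq_some.mp h
    obtain ⟨b', hb'⟩ := (M.surj v.1).choose_spec
    exact M.cls _ _ b' b.1 (hb'.trans h1.symm)
  · intro f g φ ψ hφ hψ hd C b₁ hC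
    exact (key f g φ ψ hφ hψ hd C b₁ hC).1.1
  · convert hne using 2

end Abs

end Vale.Agent.P039.H84
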