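import Vale.Agent.P039.H84.K2
import Vale.Agent.P039.BC.Top

/-! Hamiltonian cycles through one edge of a face which avoid another edge at the face: webs
without nontrivial cuts of three edges, and mirror images (helper84). -/

set_option linter.all false

namespace Vale.Agent.P039.H84

open Finset Vale.Agent.P039.Bn

variable {B W V : Type}

/-- a good matching gives a Hamiltonian cycle which contains the edges chosen by the matching -/
theorem hamK [Fintype B] [Fintype W] [Fintype V] (M : PMap B W V) (hM : M.Sph) (b₀ : B)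
    (f : Bz.BOff b₀ → Fin 3) (hm : Bz.Mat (Bz.Fo M b₀) f) (hg : Bz.Good (Bz.Fo M b₀) f)
    (i : Fin 3) : ∃ m, Bz.HamM M m ∧ m b₀ = i ∧ ∀ b (hb : b ≠ b₀), m b ≠ f ⟨b, hb⟩ := by
  classical
  let F : B → Fin 3 := fun b => if h : b ≠ b₀ then f ⟨b, h⟩ else i + 1
  have hF : ∀ b : Bz.BOff b₀, F b.1 = f b := fun b => by simp only [F, dif_pos b.2]
  have hF0 : F b₀ = i + 1 := by simp [F]
  have hgood := H977.good_of hm hg F hF
  obtain ⟨m, hm0, hmF, hbij⟩ := H977.exists_match hM.conn hgood i
  refine ⟨m, ⟨hbij, ?_⟩, hm0, ?_⟩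
  · -- the owner of the matching edge at `b` is the face of class `F b`
    have hmF' : ∀ b, F b ≠ m b := by
      intro b
      by_cases hb : b = b₀
      · rw [hb, hF0, hm0]; exact fne1 i
      · exact (hmF b hb).symm
    refine H551.ham_of_own (H977.toLab M) (H977.gc_of_conn hM.conn) m hbij (fun b => M.c (F b) b) ?_
      (fun b => ⟨F b, hmF' b, rfl⟩) b₀ (M.c i b₀) (M.c (i + 2) b₀) ?_ ⟨i, rfl⟩ ⟨i + 2, rfl⟩ ?_ ?_
    · intro a b hab
      simp only at hab
      by_cases ha : a = b₀
      · by_cases hb : b = b₀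
        · rw [ha, hb]
        · rw [ha] at hab
          exact absurd hab.symm (hgood.off b _ hb)
      · by_cases hb : b = b₀
        · rw [hb] at hab
          exact absurd hab (hgood.off a _ ha)
        · exact hgood.inj a b ha hb hab
    · intro h
      exact fne2 i (M.cls _ _ _ _ h).symm
    · intro b h
      by_cases hb : b = b₀
      · rw [hb, hF0] at h
        exact fne1 i (M.cls _ _ _ _ h)
      · exact hgood.off b _ hb h
    · intro b h
      by_cases hb : b = b₀
      · rw [hb, hF0] at h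
        exact fne12 i (M.cls _ _ _ _ h)
      · exact hgood.off b _ hb h
  · intro b hb h
    apply hmF b hb
    rw [h, ← hF ⟨b, hb⟩]

/-- for two different edges, one on a face and one with a black end on the same face, there is a
Hamiltonian cycle through the first one which avoids the second one -/
def BK (M : PMap B W V) : Prop :=
  ∀ (j0 : Fin 3) (b0 b1 : B) (i j : Fin 3), M.c j0 b0 = M.c j0 b1 → j ≠ j0 →
    ¬ (b0 = b1 ∧ i = j) → ∃ m, Bz.HamM M m ∧ m b0 = i ∧ m b1 ≠ j

/-- the same for a white end -/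
def WK (M : PMap B W V) : Prop :=
  ∀ (j0 : Fin 3) (w0 : W) (b1 : B) (i j : Fin 3), M.cw j0 w0 = M.c j0 b1 → j ≠ j0 →
    ¬ ((M.e i).symm w0 = b1 ∧ i = j) → ∃ m, Bz.HamM M m ∧ m ((M.e i).symm w0) = i ∧ m b1 ≠ j

/-- webs without nontrivial cuts of three edges -/
theorem bk_core [Fintype B] [Fintype W] [Fintype V] (M : PMap B W V) (hS : M.Sph)
    (h3 : Bz.C3 M) (h4 : Bz.C4 M) : BK M := by
  intro j0 b0 b1 i j hF hj hne
  by_cases hb : b1 = b0
  · subst hb
    obtain ⟨m, hm, hi⟩ := H867.webStmt B W V M hS h3 b1 i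
    exact ⟨m, hm, hi, fun h => hne ⟨rfl, hi.symm.trans h⟩⟩
  · obtain ⟨f, h1, h2, h5⟩ := good_at M hS b0 b1 hb j0 j hj hF.symm
      (H794.pairStmt B W V M hS h3 h4 b0)
    obtain ⟨m, hm, hi, hmf⟩ := hamK M hS b0 f h1 h2 i
    exact ⟨m, hm, hi, by rw [← h5]; exact hmf b1 hb⟩

/-! ### the mirror image -/

theorem neg1 (j : Fin 3) : -(j + 1) = -j + 2 := by revert j; decide
theorem neg2 (j : Fin 3) : -(j + 2) = -j + 1 := by revert j; decide

/-- blacks and whites exchanged -/
def mir (M : PMap B W V) : PMap W B V where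
  e i := (M.e (-i)).symm
  c j w := M.cw (-j) w
  step := by
    intro j w w' h
    rw [neg1, neg2] at h
    have h1 : w' = M.e (-j + 2) ((M.e (-j + 1)).symm w) := by
      rw [← h, Equiv.apply_symm_apply]
    rw [h1, M.cw_e2]
    rfl
  exact := by
    intro j w w' h
    have h1 := M.exact (-j) _ _ h
    have key : ∀ x y, Relation.EqvGen (fun x y => M.e (-j + 1) y = M.e (-j + 2) x) x y →
        Relation.EqvGen (fun x y => (M.e (-(j + 1))).symm y = (M.e (-(j + 2))).symm x)
          (M.e (-j + 1) x) (M.e (-j + 1) y) := by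
      intro x y hxy
      induction hxy with
      | rel x y hr =>
        apply Relation.EqvGen.rel
        rw [neg1, neg2, hr, Equiv.symm_apply_apply, Equiv.symm_apply_apply]
      | refl _ => exact Relation.EqvGen.refl _
      | symm x y _ ih => exact ih.symm
      | trans x y z _ _ ih1 ih2 => exact ih1.trans _ _ _ ih2
    have h2 := key _ _ h1
    rw [Equiv.apply_symm_apply, Equiv.apply_symm_apply] at h2
    exact h2
  cls := by
    intro j j' w w' h
    exact neg_injective (M.cls _ _ _ _ h)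
  surj := by
    intro v
    obtain ⟨j, b, rfl⟩ := M.surj v
    refine ⟨-j, M.e (j + 1) b, ?_⟩
    rw [neg_neg, M.cw_e1]

theorem mir_e (M : PMap B W V) (i : Fin 3) (w : W) : (mir M).e i w = (M.e (-i)).symm w := rfl

theorem mir_c (M : PMap B W V) (j : Fin 3) (w : W) : (mir M).c j w = M.cw (-j) w := rfl

theorem mir_c3 [Fintype B] [Fintype W] (M : PMap B W V) (h : Bz.C3 M) : Bz.C3 (mir M) := by
  classical
  intro S T h1 h2
  refine (h T S h1.symm h2.symm).trans ?_
  unfold Bz.cutc
  refine Finset.card_le_card_of_injOn (fun p => (-p.1, M.e p.1 p.2)) ?_ ?_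
  · intro p hp
    have h3 := (Finset.mem_filter.1 hp).2
    refine Finset.mem_coe.2 (Finset.mem_filter.2 ⟨mem_univ _, ?_⟩)
    rw [mir_e]
    simp only [neg_neg, Equiv.symm_apply_apply]
    exact fun h4 => h3 h4.symm
  · intro p _ q _ hpq
    have e1 : p.1 = q.1 := neg_injective (congrArg Prod.fst hpq)
    have e2 : M.e p.1 p.2 = M.e q.1 q.2 := congrArg Prod.snd hpq
    rw [e1] at e2
    exact Prod.ext e1 ((M.e q.1).injective e2)

theorem mir_sph [Fintype B] [Fintype W] [Fintype V] (M : PMap B W V) (hS : M.Sph)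
    (h : Bz.C3 M) : (mir M).Sph :=
  ⟨Bz.conn_of_c3 _ (mir_c3 M h), by rw [hS.card, Fintype.card_congr (M.e 0)]⟩

theorem wk_of [Finite B] (M : PMap B W V) (h : BK (mir M)) : WK M := by
  intro j0 w0 b1 i j hF hj hne
  obtain ⟨m', ⟨hbij, hconn⟩, hi, hmj⟩ := h (-j0) w0 (M.e j b1) (-i) (-j) (by
      rw [mir_c, mir_c, neg_neg, hF, M.cw_e _ _ hj]) (fun h' => hj (neg_injective h')) (by
      rintro ⟨h1, h2⟩
      obtain rfl := neg_injective h2
      exact hne ⟨by rw [h1, Equiv.symm_apply_apply], rfl⟩)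
  let φ : W ≃ B := Equiv.ofBijective _ hbij
  have hφ : ∀ w, φ w = (M.e (-(m' w))).symm w := fun w => rfl
  have hm : ∀ b, M.e (-(m' (φ.symm b))) b = φ.symm b := by
    intro b
    have h1 := hφ (φ.symm b)
    rw [Equiv.apply_symm_apply] at h1
    exact (Equiv.eq_symm_apply _).1 h1
  -- the edge of the matching at `w`
  have hkey : ∀ (w : W) (k : Fin 3), -(m' (φ.symm ((M.e (-k)).symm w))) = -k → m' w = k := by
    intro w k hk
    have h1 := hm ((M.e (-k)).symm w)
    rw [hk, Equiv.apply_symm_apply] at h1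
    rw [h1]
    exact neg_injective hk
  refine ⟨fun b => -(m' (φ.symm b)), ⟨?_, ?_⟩, ?_, ?_⟩
  · have : (fun b => M.e (-(m' (φ.symm b))) b) = φ.symm := funext hm
    rw [this]
    exact φ.symm.bijective
  · intro S T hST hne' b
    have hT := hconn T S (by
      intro w k hk
      rw [mir_e]
      have h1 := hST ((M.e (-k)).symm w) (-k) (fun h2 => hk (hkey w k h2.symm).symm)
      rw [Equiv.apply_symm_apply] at h1
      exact h1.symm)
    obtain ⟨b', hb'⟩ := hne'
    obtain ⟨l, hl⟩ := Bz.exists_ne (-(m' (φ.symm b')))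
    obtain ⟨k, hk⟩ := Bz.exists_ne (-(m' (φ.symm b)))
    exact (hST b k hk).2 (hT ⟨_, (hST b' l hl).1 hb'⟩ _)
  · show -(m' (φ.symm ((M.e i).symm w0))) = i
    have h1 : φ w0 = (M.e i).symm w0 := by rw [hφ, hi, neg_neg]
    rw [← h1, Equiv.symm_apply_apply, hi, neg_neg]
  · intro h1
    apply hmj
    have h1' : -(m' (φ.symm b1)) = j := h1
    have h2 := hm b1
    rw [h1'] at h2
    rw [h2, ← h1', neg_neg]

end Vale.Agent.P039.H84
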