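import Vale.Agent.P039.H84.K3
import Vale.Agent.P039.H899.Contract
import Vale.Agent.P039.H331.Step6

/-! Hamiltonian cycles through one edge of a face which avoid another edge at the face: gluing
along cuts of three edges (helper84). -/

set_option linter.all false

namespace Vale.Agent.P039.H84

open Vale.Agent.P039.Bn Vale.Agent.P039.Sk

variable {B W V : Type} {X : Web B W} {S : B → Prop} {T : W → Prop}

theorem eqvGen_mono {A : Type} {r s : A → A → Prop} (h : ∀ x y, r x y → s x y) {a b : A}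
    (hab : Relation.EqvGen r a b) : Relation.EqvGen s a b := by
  induction hab with
  | rel x y hr => exact Relation.EqvGen.rel _ _ (h x y hr)
  | refl _ => exact Relation.EqvGen.refl _
  | symm x y _ ih => exact ih.symm
  | trans x y z _ _ ih1 ih2 => exact ih1.trans _ _ _ ih2

/-- the same cut with sets -/
def toSk (C : H331.Cut3 X S T) : Sk.Cut3 X {a | S a} {w | T w} where
  b := C.bb
  bS := C.hb
  bT := C.hw
  inn i x hx hne := by_contra fun h => hne (C.only i x hx h)
  out := C.out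

theorem web1_eq (C : H331.Cut3 X S T) (i : Fin 3) (x : {a // S a}) :
    (toSk C).web1.e i x = C.X1.e i x := by
  by_cases h : x.1 = C.bb i
  · obtain rfl : x = ⟨C.bb i, C.hb i⟩ := Subtype.ext h
    exact ((toSk C).web1_b i (x := ⟨C.bb i, C.hb i⟩) rfl).trans (C.X1_none i).symm
  · have hT : T (X.e i x.1) := by
      by_contra hT
      exact h (C.only i x.1 x.2 hT)
    rw [C.X1_some i x hT]
    exact (toSk C).web1_ne i (x := x) h

theorem web2_eq (C : H331.Cut3 X S T) (i : Fin 3) (x : Option {a // ¬ S a}) :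
    (toSk C).web2.e i x = C.X2.e i x := by
  cases x with
  | none => rfl
  | some x => rfl

/-- the faces of the first side -/
noncomputable def L1 [Finite B] (C : H331.Cut3 X S T) (L : Lab X V) :
    Lab C.X1 ↥(Sk.Cut3.In {a | S a} L) where
  c j x := ((toSk C).lab1 L).c j x
  step := by
    intro j b b' h
    apply ((toSk C).lab1 L).step
    exact ((web1_eq C (j + 1) b').trans h).trans (web1_eq C (j + 2) b).symm
  exact := by
    intro j b b' h
    have h1 := ((toSk C).lab1 L).exact j b b' h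
    refine eqvGen_mono ?_ h1
    intro x y hxy
    exact ((web1_eq C (j + 1) y).symm.trans hxy).trans (web1_eq C (j + 2) x)
  cls := by
    intro j j' b b' h
    exact ((toSk C).lab1 L).cls j j' b b' h
  surj := by
    intro v
    exact ((toSk C).lab1 L).surj v

/-- the faces of the second side -/
noncomputable def L2 [Finite B] (C : H331.Cut3 X S T) (L : Lab X V) :
    Lab C.X2 ↥((toSk C).Out L) where
  c j x := ((toSk C).lab2 L).c j x
  step := by
    intro j b b' h
    apply ((toSk C).lab2 L).step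
    exact ((web2_eq C (j + 1) b').trans h).trans (web2_eq C (j + 2) b).symm
  exact := by
    intro j b b' h
    have h1 := ((toSk C).lab2 L).exact j b b' h
    refine eqvGen_mono ?_ h1
    intro x y hxy
    exact ((web2_eq C (j + 1) y).symm.trans hxy).trans (web2_eq C (j + 2) x)
  cls := by
    intro j j' b b' h
    exact ((toSk C).lab2 L).cls j j' b b' h
  surj := by
    intro v
    exact ((toSk C).lab2 L).surj v

theorem L1_val [Finite B] (C : H331.Cut3 X S T) (L : Lab X V) (j : Fin 3) (x : {a // S a}) :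
    ((L1 C L).c j x).1 = L.c j x.1 := rfl

theorem L2_none [Finite B] (C : H331.Cut3 X S T) (L : Lab X V) (j : Fin 3) :
    ((L2 C L).c j none).1 = L.c j (C.bb (j + 1)) := rfl

theorem L2_some [Finite B] (C : H331.Cut3 X S T) (L : Lab X V) (j : Fin 3)
    (x : {a // ¬ S a}) : ((L2 C L).c j (some x)).1 = L.c j x.1 := rfl

/-- a face on both sides is at the cut -/
theorem cross [Finite B] (C : H331.Cut3 X S T) (L : Lab X V) (j : Fin 3) {a a' : B} (ha : S a)
    (ha' : ¬ S a') (h : L.c j a = L.c j a') : L.c j a = L.c j (C.bb (j + 1)) := by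
  have h1 : L.c j a ∈ Sk.Cut3.In {a | S a} L ∩ (toSk C).Out L :=
    ⟨⟨j, a, ha, rfl⟩, Or.inl ⟨j, a', ha', h.symm⟩⟩
  rw [(toSk C).In_inter_Out L] at h1
  obtain ⟨j', hj'⟩ := h1
  obtain rfl := L.cls _ _ _ _ hj'
  exact hj'.symm

/-- the class of the contracted white vertex -/
theorem L1_white [Finite B] (C : H331.Cut3 X S T) (L : Lab X V) (j : Fin 3) :
    ((Bz.ofLab (L1 C L)).cw j none).1 = L.c j (C.bb (j + 1)) := by
  have h : (C.X1.e (j + 1)).symm none = ⟨C.bb (j + 1), C.hb (j + 1)⟩ := by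
    rw [Equiv.symm_apply_eq, C.X1_none]
  show ((L1 C L).c j ((C.X1.e (j + 1)).symm none)).1 = _
  rw [h]
  rfl

open Classical in
/-- glueing of Hamiltonian cycles -/
theorem glueM [Finite B] [Finite W] {V1 V2 : Type} (L : Lab X V) (C : H331.Cut3 X S T)
    (M1 : Lab C.X1 V1) (M2 : Lab C.X2 V2)
    {m1 : {a // S a} → Fin 3} {m2 : Option {a // ¬ S a} → Fin 3} {r : Fin 3}
    (h1 : Bz.HamM (Bz.ofLab M1) m1) (h2 : Bz.HamM (Bz.ofLab M2) m2)
    (e1 : m1 ⟨C.bb r, C.hb r⟩ = r) (e2 : m2 none = r) :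
    ∃ m, Bz.HamM (Bz.ofLab L) m ∧ (∀ a (h : S a), m a = m1 ⟨a, h⟩) ∧
      ∀ a (h : ¬ S a), m a = m2 (some ⟨a, h⟩) := by
  obtain ⟨k1, k2⟩ := H331.glue_core C r m1 m2 e1 e2 h1.1 h2.1
    (fun P Q hPQ hP a => h1.2 {a | P a} {w | Q w} hPQ hP a)
    (fun P Q hPQ hP a => h2.2 {a | P a} {w | Q w} hPQ hP a)
  refine ⟨_, ⟨k1, fun S T hST hS a => k2 (fun a => a ∈ S) (fun w => w ∈ T) hST hS a⟩, ?_, ?_⟩
  · intro a h; simp only [h, dif_pos]
  · intro a h; simp only [h, dif_neg, not_false_eq_true]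

/-- the colour of the matching edge at the contracted white vertex -/
theorem miss [Finite B] {V1 : Type} (C : H331.Cut3 X S T) (M1 : Lab C.X1 V1)
    {m1 : {a // S a} → Fin 3} (h1 : Bz.HamM (Bz.ofLab M1) m1) :
    ∃ r, m1 ⟨C.bb r, C.hb r⟩ = r := by
  obtain ⟨a, ha⟩ := h1.1.2 none
  change C.X1.e (m1 a) a = none at ha
  have hT : ¬ T (X.e (m1 a) a.1) := by
    intro h
    rw [C.X1_some (m1 a) a h] at ha
    exact absurd ha (by simp)
  have h3 : a = ⟨C.bb (m1 a), C.hb (m1 a)⟩ := Subtype.ext (C.only _ a.1 a.2 hT)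
  exact ⟨m1 a, by rw [← h3]⟩

theorem glueBK [Finite B] [Finite W] (L : Lab X V) (C : H331.Cut3 X S T)
    (b1K : BK (Bz.ofLab (L1 C L))) (w1K : WK (Bz.ofLab (L1 C L)))
    (b2K : BK (Bz.ofLab (L2 C L))) (h1A : Bz.HA (Bz.ofLab (L1 C L)))
    (h2A : Bz.HA (Bz.ofLab (L2 C L))) : BK (Bz.ofLab L) := by
  intro j0 b0 b1 i j hF hj hne
  change L.c j0 b0 = L.c j0 b1 at hF
  by_cases hs0 : S b0
  · by_cases hs1 : S b1
    · obtain ⟨m1, hm1, hi, hj1⟩ := b1K j0 ⟨b0, hs0⟩ ⟨b1, hs1⟩ i j (Subtype.ext hF) hj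
        (fun h => hne ⟨congrArg Subtype.val h.1, h.2⟩)
      obtain ⟨r, hr⟩ := miss C _ hm1
      obtain ⟨m2, hm2, hr2⟩ := h2A none r
      obtain ⟨m, hm, ha, hb⟩ := glueM L C _ _ hm1 hm2 hr hr2
      exact ⟨m, hm, by rw [ha b0 hs0, hi], by rw [ha b1 hs1]; exact hj1⟩
    · obtain ⟨m1, hm1, hi⟩ := h1A ⟨b0, hs0⟩ i
      obtain ⟨r, hr⟩ := miss C _ hm1
      obtain ⟨m2, hm2, hr2, hj2⟩ := b2K j0 none (some ⟨b1, hs1⟩) r j (Subtype.ext (by
        change L.c j0 (C.bb (j0 + 1)) = L.c j0 b1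
        rw [← cross C L j0 hs0 hs1 hF, hF])) hj (fun h => by simp at h)
      obtain ⟨m, hm, ha, hb⟩ := glueM L C _ _ hm1 hm2 hr hr2
      exact ⟨m, hm, by rw [ha b0 hs0, hi], by rw [hb b1 hs1]; exact hj2⟩
  · by_cases hs1 : S b1
    · have hF2 : L.c j0 b1 = L.c j0 (C.bb (j0 + 1)) := cross C L j0 hs1 hs0 hF.symm
      obtain ⟨m2, hm2, hi, hj2⟩ := b2K j0 (some ⟨b0, hs0⟩) none i j (Subtype.ext (by
        change L.c j0 b0 = L.c j0 (C.bb (j0 + 1))
        rw [hF, hF2])) hj (fun h => by simp at h)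
      have hbb : ((Bz.ofLab (L1 C L)).e (m2 none)).symm none =
          ⟨C.bb (m2 none), C.hb (m2 none)⟩ := by
        rw [Equiv.symm_apply_eq]
        exact (C.X1_none _).symm
      obtain ⟨m1, hm1, hr, hj1⟩ := w1K j0 none ⟨b1, hs1⟩ (m2 none) j (Subtype.ext (by
        rw [L1_white]
        exact hF2.symm)) hj (fun h => hj2 h.2)
      rw [hbb] at hr
      obtain ⟨m, hm, ha, hb⟩ := glueM L C _ _ hm1 hm2 hr rfl
      exact ⟨m, hm, by rw [hb b0 hs0, hi], by rw [ha b1 hs1]; exact hj1⟩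
    · obtain ⟨m2, hm2, hi, hj2⟩ := b2K j0 (some ⟨b0, hs0⟩) (some ⟨b1, hs1⟩) i j
        (Subtype.ext hF) hj (fun h => hne ⟨congrArg Subtype.val (Option.some.inj h.1), h.2⟩)
      obtain ⟨m1, hm1, hr⟩ := h1A ⟨C.bb (m2 none), C.hb (m2 none)⟩ (m2 none)
      obtain ⟨m, hm, ha, hb⟩ := glueM L C _ _ hm1 hm2 hr rfl
      exact ⟨m, hm, by rw [hb b0 hs0, hi], by rw [hb b1 hs1]; exact hj2⟩

/-- **The Kelmans property of webs, black vertices.** -/
theorem bk_all : ∀ (B W V : Type) [Fintype B] [Fintype W] [Fintype V] (M : PMap B W V),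
    M.Sph → Bz.C3 M → BK M := by
  have main : ∀ n : ℕ, ∀ (B W V : Type) [Fintype B] [Fintype W] [Fintype V] (M : PMap B W V),
      Nat.card B = n → M.Sph → Bz.C3 M → BK M := by
    intro n
    induction n using Nat.strong_induction_on with
    | _ n ih =>
      intro B W V _ _ _ M hn hS h3
      classical
      by_cases h4 : H331.C4 (Bz.toWeb M)
      · exact bk_core M hS h3 (B893.c4_of M h4)
      · unfold H331.C4 at h4
        push Not at h4
        obtain ⟨S, T, s1, t1, s2, t2, hlt⟩ := h4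
        have h3' : H331.C3 (Bz.toWeb M) := H331.C3_toWeb M h3
        have h5 := h3' S T (Or.inl s1) (Or.inl s2)
        have h6 : H331.cutc (Bz.toWeb M) S T = 3 := by omega
        have hnf : B893.nf (Bz.toWeb M) = Nat.card B + 2 := by
          rw [B893.nf_eq (Bz.toLab M), Nat.card_eq_fintype_card, Nat.card_eq_fintype_card]
          exact hS.card
        have key : ∀ (S : B → Prop) (T : W → Prop) (C : H331.Cut3 (Bz.toWeb M) S T),
            (∃ w, T w) → (∃ a, ¬ S a) → BK M := by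
          intro S T C ht hs
          let L := Bz.toLab M
          obtain ⟨n1, n2⟩ := B893.sph_sides h3' hnf C
          have hc1 := H331.C3_X1 h3' C
          have hc2 := H331.C3_X2 h3' C
          let _ := Fintype.ofFinite {a // S a}
          let _ := Fintype.ofFinite {w // T w}
          let _ := Fintype.ofFinite {a // ¬ S a}
          let _ := Fintype.ofFinite {w // ¬ T w}
          let _ := Fintype.ofFinite ↥(Sk.Cut3.In {a | S a} L)
          let _ := Fintype.ofFinite ↥((toSk C).Out L)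
          have d1 : Bz.C3 (Bz.ofLab (L1 C L)) := H331.C3_ofLab _ hc1
          have d2 : Bz.C3 (Bz.ofLab (L2 C L)) := H331.C3_ofLab _ hc2
          have e1 : (Bz.ofLab (L1 C L)).Sph := ⟨Bz.conn_of_c3 _ d1, by
            rw [← Nat.card_eq_fintype_card, ← Nat.card_eq_fintype_card, ← B893.nf_eq (L1 C L)]
            exact n1⟩
          have e2 : (Bz.ofLab (L2 C L)).Sph := ⟨Bz.conn_of_c3 _ d2, by
            rw [← Nat.card_eq_fintype_card, ← Nat.card_eq_fintype_card, ← B893.nf_eq (L2 C L)]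
            exact n2⟩
          have l1 : Nat.card {a // S a} < n := by rw [← hn]; exact H331.card_X1 hs
          have l2 : Nat.card (Option {a // ¬ S a}) < n := by
            rw [← hn]; exact H331.card_X2 C ht
          have l1' : Nat.card (Option {w // T w}) < n := by
            rw [← Nat.card_congr ((Bz.ofLab (L1 C L)).e 0)]
            exact l1
          refine glueBK L C (ih _ l1 _ _ _ _ rfl e1 d1)
            (wk_of _ (ih _ l1' _ _ _ (mir (Bz.ofLab (L1 C L))) rfl (mir_sph _ e1 d1)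
              (mir_c3 _ d1)))
            (ih _ l2 _ _ _ _ rfl e2 d2) (H867.webStmt _ _ _ _ e1 d1)
            (H867.webStmt _ _ _ _ e2 d2)
        rcases H331.exists_cut3 (Bz.toWeb M) S T h6 with ⟨⟨C⟩⟩ | ⟨⟨C⟩⟩
        · exact key S T C t1 s2
        · refine key _ _ C t2 ?_
          obtain ⟨a, ha⟩ := s1
          exact ⟨a, fun h => h ha⟩
  intro B W V _ _ _ M hS h3
  exact main _ B W V M rfl hS h3

/-- **The Kelmans property of webs, white vertices.** -/
theorem wk_all (B W V : Type) [Fintype B] [Fintype W] [Fintype V] (M : PMap B W V)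
    (hS : M.Sph) (h3 : Bz.C3 M) : WK M :=
  wk_of M (bk_all _ _ _ (mir M) (mir_sph M hS h3) (mir_c3 M h3))

end Vale.Agent.P039.H84
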