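import Vale.Agent.P039.H84.HexRank
import Vale.Agent.P039.Bn.L2.Defs

/-!
# P039 : STEP 2, the count of the third corners of an alternating cycle (helper84)
-/

set_option linter.all false

namespace Vale.Agent.P039.H84

open Finset Vale.Agent.P039.Bn

variable {B W V : Type} [Fintype B] [Fintype W] [Fintype V] [DecidableEq B] [DecidableEq W]
  [DecidableEq V]

/-- corners on the boundary of a white of `I` -/
def EI (M : PMap B W V) (I : Finset W) : Finset (B × Fin 3) :=
  univ.filter fun q => M.e (q.2 + 1) q.1 ∈ I ∨ M.e (q.2 + 2) q.1 ∈ I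

/-- blacks next to a white of `I` -/
def BI (M : PMap B W V) (I : Finset W) : Finset B :=
  univ.filter fun b => ∃ j, M.e j b ∈ I

/-- faces next to a white of `I` -/
def VI (M : PMap B W V) (I : Finset W) : Finset V :=
  univ.filter fun v => ∃ b j, M.c j b = v ∧ (M.e (j + 1) b ∈ I ∨ M.e (j + 2) b ∈ I)

/-- the two sides of the cycle -/
structure Sides (M : PMap B W V) (f g : B → Fin 3) (S : Finset B) (I : Finset W) : Prop where
  out : ∀ b, b ∉ S → ∀ j, (M.e (j + 1) b ∈ I ↔ M.e (j + 2) b ∈ I)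
  hf : ∀ b ∈ S, ¬ (M.e (f b + 1) b ∈ I ↔ M.e (f b + 2) b ∈ I)
  hg : ∀ b ∈ S, ¬ (M.e (g b + 1) b ∈ I ↔ M.e (g b + 2) b ∈ I)
  hh : ∀ b ∈ S, ∀ j, j ≠ f b → j ≠ g b → (M.e (j + 1) b ∈ I ↔ M.e (j + 2) b ∈ I)

theorem Sides.compl {M : PMap B W V} {f g : B → Fin 3} {S : Finset B} {I : Finset W}
    (h : Sides M f g S I) : Sides M f g S Iᶜ := by
  refine ⟨fun b hb j => ?_, fun b hb => ?_, fun b hb => ?_, fun b hb j h1 h2 => ?_⟩
  · rw [mem_compl, mem_compl, h.out b hb j]
  · rw [mem_compl, mem_compl, not_iff_not]; exact h.hf b hb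
  · rw [mem_compl, mem_compl, not_iff_not]; exact h.hg b hb
  · rw [mem_compl, mem_compl, h.hh b hb j h1 h2]

theorem Sides.of_cyc {M : PMap B W V} {f g : B → Fin 3} {S : Finset B} {I : Finset W}
    (hne : ∀ b ∈ S, f b ≠ g b) {s : ℚ} (hs : s = 1 ∨ s = -1)
    (h : ∀ b j, PMap.cyc f g S b j =
        s * ((if M.e (j + 1) b ∈ I then 1 else 0) - (if M.e (j + 2) b ∈ I then 1 else 0))) :
    Sides M f g S I := by
  have hs0 : s ≠ 0 := by rcases hs with rfl | rfl <;> norm_num
  have key : ∀ b j, PMap.cyc f g S b j = 0 ↔ (M.e (j + 1) b ∈ I ↔ M.e (j + 2) b ∈ I) := by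
    intro b j
    rw [h b j, mul_eq_zero, or_iff_right hs0]
    by_cases h1 : M.e (j + 1) b ∈ I <;> by_cases h2 : M.e (j + 2) b ∈ I <;> simp [h1, h2]
  refine ⟨fun b hb j => ?_, fun b hb => ?_, fun b hb => ?_, fun b hb j h1 h2 => ?_⟩
  · rw [← key]; unfold PMap.cyc; rw [if_neg hb]
  · rw [← key]; unfold PMap.cyc
    rw [if_pos hb, if_pos rfl, if_neg (hne b hb)]; norm_num
  · rw [← key]; unfold PMap.cyc
    rw [if_pos hb, if_pos rfl, if_neg (hne b hb).symm]; norm_num
  · rw [← key]; unfold PMap.cyc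
    rw [if_pos hb, if_neg h1, if_neg h2]; norm_num

section side
variable {M : PMap B W V} {f g : B → Fin 3} {S : Finset B} {nx : B → B} {I : Finset W}

theorem three_same {P : Fin 3 → Prop} (h : ∀ j, (P (j + 1) ↔ P (j + 2))) (i j : Fin 3) :
    P i ↔ P j := by
  have e0 := h 0
  have e1 := h 1
  have e2 := h 2
  simp only [show (0 : Fin 3) + 1 = 1 from rfl, show (0 : Fin 3) + 2 = 2 from rfl,
    show (1 : Fin 3) + 1 = 2 from rfl, show (1 : Fin 3) + 2 = 0 from rfl,
    show (2 : Fin 3) + 1 = 0 from rfl, show (2 : Fin 3) + 2 = 1 from rfl] at e0 e1 e2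
  have g : ∀ j, (P j ↔ P 0) := by
    intro j
    fin_cases j
    · exact Iff.rfl
    · exact e2.symm
    · exact e1
  rw [g i, g j]

theorem out_same (h : Sides M f g S I) {b : B} (hb : b ∉ S) (i j : Fin 3) :
    M.e i b ∈ I ↔ M.e j b ∈ I :=
  three_same (P := fun i => M.e i b ∈ I) (h.out b hb) i j

/-- around a face off the cycle all whites are on the same side -/
theorem face_same (h : Sides M f g S I) (hA : PMap.IsAlt M f g S nx) {v : V}
    (hv : ∀ b ∈ S, M.c (g b) b ≠ v) {j : Fin 3} {x y : B} (hx : M.c j x = v) (hy : M.c j y = v) :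
    M.e (j + 1) x ∈ I ↔ M.e (j + 1) y ∈ I := by
  have h1 : ∀ b, M.c j b = v → (M.e (j + 1) b ∈ I ↔ M.e (j + 2) b ∈ I) := by
    intro b hb
    by_cases hS : b ∈ S
    · apply h.hh b hS
      · rintro rfl
        apply hv (nx b) (hA.maps b hS)
        rw [← hA.face b hS, hb]
      · rintro rfl
        exact hv b hS hb
    · exact h.out b hS j
  have h2 : ∀ x y, Relation.EqvGen (fun x y => M.e (j + 1) y = M.e (j + 2) x) x y →
      M.c j x = v → (M.e (j + 1) x ∈ I ↔ M.e (j + 1) y ∈ I) := by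
    intro x y hxy
    induction hxy with
    | rel x y hr =>
      intro hx
      rw [h1 x hx, hr]
    | refl _ => intro _; exact Iff.rfl
    | symm x y hr ih =>
      intro hy
      have : M.c j x = v := by rw [M.c_of_eqvGen hr, hy]
      exact (ih this).symm
    | trans x y z hr1 hr2 ih1 ih2 =>
      intro hx
      have : M.c j y = v := by rw [← M.c_of_eqvGen hr1, hx]
      exact (ih1 hx).trans (ih2 this)
  exact h2 x y (M.exact j x y (hx.trans hy.symm)) hx

theorem face_same' (h : Sides M f g S I) (hA : PMap.IsAlt M f g S nx) {v : V}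
    (hv : ∀ b ∈ S, M.c (g b) b ≠ v) {j : Fin 3} {x : B} (hx : M.c j x = v) :
    M.e (j + 1) x ∈ I ↔ M.e (j + 2) x ∈ I := by
  have h1 : M.c j (M.rho j x) = v := by rw [M.c_rho, hx]
  have := face_same h hA hv hx h1
  rwa [M.e_rho] at this

/-- the subgraph relation -/
def rI (M : PMap B W V) (I : Finset W) (x y : B ⊕ V) : Prop :=
  ∃ q ∈ EI M I, x = Sum.inl q.1 ∧ y = Sum.inr (M.c q.2 q.1)

theorem mem_EI {b : B} {j : Fin 3} :
    (b, j) ∈ EI M I ↔ (M.e (j + 1) b ∈ I ∨ M.e (j + 2) b ∈ I) := by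
  simp [EI]

theorem rI_of {b : B} {j : Fin 3} (h : M.e (j + 1) b ∈ I ∨ M.e (j + 2) b ∈ I) :
    Relation.EqvGen (rI M I) (Sum.inl b) (Sum.inr (M.c j b)) :=
  Relation.EqvGen.rel _ _ ⟨(b, j), mem_EI.2 h, rfl, rfl⟩

theorem one_of {P Q : Prop} (h : ¬ (P ↔ Q)) : P ∨ Q := by tauto

theorem cycle_conn (h : Sides M f g S I) (hA : PMap.IsAlt M f g S nx) {b1 : B} (h1 : b1 ∈ S) :
    ∀ b ∈ S, Relation.EqvGen (rI M I) (Sum.inl b1) (Sum.inl b) := by
  have := hA.single {b | Relation.EqvGen (rI M I) (Sum.inl b1) (Sum.inl b)}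
    ⟨b1, h1, Relation.EqvGen.refl _⟩ (by
      intro b hb hX
      have hn := hA.maps b hb
      have e1 := rI_of (M := M) (I := I) (one_of (h.hf b hb))
      have e2 := rI_of (M := M) (I := I) (one_of (h.hg (nx b) hn))
      rw [← hA.face b hb] at e2
      exact (Relation.EqvGen.trans _ _ _ hX e1).trans _ _ _ (e2.symm))
  exact this

theorem all_conn (hc : M.Conn) (h : Sides M f g S I) (hA : PMap.IsAlt M f g S nx) {b1 : B}
    (h1 : b1 ∈ S) (b : B) (hb : ∃ j, M.e j b ∈ I) :
    Relation.EqvGen (rI M I) (Sum.inl b) (Sum.inl b1) := by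
  by_contra hcon
  have hC : ∀ v, (∃ b ∈ S, M.c (g b) b = v) →
      Relation.EqvGen (rI M I) (Sum.inr v) (Sum.inl b1) := by
    rintro v ⟨b, hb, rfl⟩
    exact (rI_of (one_of (h.hg b hb))).symm.trans _ _ _ ((cycle_conn h hA h1 b hb).symm)
  let P : B → Prop := fun b => (∃ j, M.e j b ∈ I) ∧
    ¬ Relation.EqvGen (rI M I) (Sum.inl b) (Sum.inl b1)
  have hstep : ∀ x y j, M.c j x = M.c j y → P x → P y := by
    intro x y j hxy ⟨⟨i, hi⟩, hx⟩
    have hxS : x ∉ S := fun hS => hx (cycle_conn h hA h1 x hS).symm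
    have hx1 : M.e (j + 1) x ∈ I := (out_same h hxS i (j + 1)).1 hi
    have hxv := rI_of (M := M) (I := I) (Or.inl hx1 : M.e (j + 1) x ∈ I ∨ M.e (j + 2) x ∈ I)
    have hv : ∀ b ∈ S, M.c (g b) b ≠ M.c j x := by
      intro b hb hbv
      exact hx (hxv.trans _ _ _ (hC _ ⟨b, hb, hbv⟩))
    have hy1 : M.e (j + 1) y ∈ I := (face_same h hA hv rfl hxy.symm).1 hx1
    have hyv := rI_of (M := M) (I := I) (Or.inl hy1 : M.e (j + 1) y ∈ I ∨ M.e (j + 2) y ∈ I)
    rw [← hxy] at hyv
    exact ⟨⟨_, hy1⟩, fun hcon => hx ((hxv.trans _ _ _ hyv.symm).trans _ _ _ hcon)⟩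
  have hall : ∀ x y, Relation.EqvGen (fun x y => ∃ j, M.c j x = M.c j y) x y → (P x ↔ P y) := by
    intro x y hxy
    induction hxy with
    | rel x y hr =>
      obtain ⟨j, hr⟩ := hr
      exact ⟨hstep x y j hr, hstep y x j hr.symm⟩
    | refl _ => exact Iff.rfl
    | symm _ _ _ ih => exact ih.symm
    | trans _ _ _ _ _ ih1 ih2 => exact ih1.trans ih2
  exact ((hall b b1 (hc b b1)).1 ⟨hb, hcon⟩).2 (Relation.EqvGen.refl _)

/-- **The inequality for one side.** -/
theorem side_ineq (hc : M.Conn) (h : Sides M f g S I) (hA : PMap.IsAlt M f g S nx)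
    (hI : I ≠ univ) : I.card + ((BI M I).card + (VI M I).card) ≤ (EI M I).card + 1 := by
  obtain ⟨b1, hb1⟩ := hA.nonempty
  have key : ∀ x ∈ (BI M I).disjSum (VI M I), Relation.EqvGen (rI M I) x (Sum.inl b1) := by
    intro x hx
    rw [mem_disjSum] at hx
    rcases hx with ⟨b, hb, rfl⟩ | ⟨v, hv, rfl⟩
    · simp only [BI, mem_filter, mem_univ, true_and] at hb
      exact all_conn hc h hA hb1 b hb
    · simp only [VI, mem_filter, mem_univ, true_and] at hv
      obtain ⟨b, j, rfl, hj⟩ := hv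
      refine (rI_of hj).symm.trans _ _ _ (all_conn hc h hA hb1 b ?_)
      rcases hj with hj | hj
      · exact ⟨_, hj⟩
      · exact ⟨_, hj⟩
  have := hex_rank M hc I hI (EI M I) ((BI M I).disjSum (VI M I)) (by
      rintro ⟨b, j⟩ hq
      rw [mem_EI] at hq
      constructor
      · rw [inl_mem_disjSum]
        simp only [BI, mem_filter, mem_univ, true_and]
        rcases hq with hj | hj
        · exact ⟨_, hj⟩
        · exact ⟨_, hj⟩
      · rw [inr_mem_disjSum]
        simp only [VI, mem_filter, mem_univ, true_and]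
        exact ⟨b, j, rfl, hq⟩)
    (fun j b hj => mem_EI.2 hj)
    (fun x hx y hy => (key x hx).trans _ _ _ (key y hy).symm)
  rwa [card_disjSum] at this

end side

/-! ### local counts at a black -/

def nE (σ : Fin 3 → Bool) : ℕ := (univ.filter fun j => (σ (j + 1) || σ (j + 2)) = true).card
def nT (σ : Fin 3 → Bool) : ℕ := (univ.filter fun j => σ j = true).card
def nB (σ : Fin 3 → Bool) : ℕ := if ∃ j, σ j = true then 1 else 0

theorem loc_out : ∀ σ : Fin 3 → Bool, (∀ j, σ (j + 1) = σ (j + 2)) →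
    nE σ + nE (fun j => !σ j) = 3 ∧ nB σ + nB (fun j => !σ j) = 1 ∧
      nE σ = 3 * nB σ ∧ nT σ = 3 * nB σ := by
  decide

theorem loc_in : ∀ (σ : Fin 3 → Bool) (f g : Fin 3), f ≠ g → σ (f + 1) ≠ σ (f + 2) →
    σ (g + 1) ≠ σ (g + 2) →
    nE σ + nE (fun j => !σ j) = 5 ∧ nB σ + nB (fun j => !σ j) = 2 ∧
      nE σ = 2 + (if σ f = true then 1 else 0) ∧ nT σ = 1 + (if σ f = true then 1 else 0) := by
  decide

/-- the pattern of the whites at a black -/
def pat (M : PMap B W V) (I : Finset W) (b : B) : Fin 3 → Bool := fun j => decide (M.e j b ∈ I)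

theorem pat_compl (M : PMap B W V) (I : Finset W) (b : B) :
    pat M Iᶜ b = fun j => !pat M I b j := by
  funext j
  simp [pat]

theorem card_EI (M : PMap B W V) (I : Finset W) : (EI M I).card = ∑ b, nE (pat M I b) := by
  unfold EI
  rw [card_filter, Fintype.sum_prod_type]
  refine sum_congr rfl fun b _ => ?_
  unfold nE
  rw [card_filter]
  refine sum_congr rfl fun j _ => ?_
  simp [pat]

theorem card_BI (M : PMap B W V) (I : Finset W) : (BI M I).card = ∑ b, nB (pat M I b) := by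
  unfold BI
  rw [card_filter]
  refine sum_congr rfl fun b _ => ?_
  unfold nB
  simp [pat]

theorem three_card (M : PMap B W V) (I : Finset W) : 3 * I.card = ∑ b, nT (pat M I b) := by
  have h1 : ∀ b, nT (pat M I b) = ∑ j : Fin 3, if M.e j b ∈ I then 1 else 0 := by
    intro b
    unfold nT
    rw [card_filter]
    refine sum_congr rfl fun j _ => ?_
    simp [pat]
  simp only [h1]
  rw [sum_comm]
  have h2 : ∀ j : Fin 3, ∑ b, (if M.e j b ∈ I then 1 else 0) = I.card := by
    intro j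
    rw [Equiv.sum_comp (M.e j) (fun w => if w ∈ I then 1 else 0)]
    simp
  rw [sum_congr rfl fun j _ => h2 j]
  simp

section count
variable {M : PMap B W V} {f g : B → Fin 3} {S : Finset B} {nx : B → B} {I : Finset W}

theorem pat_out (h : Sides M f g S I) {b : B} (hb : b ∉ S) (j : Fin 3) :
    pat M I b (j + 1) = pat M I b (j + 2) := by
  unfold pat
  rw [decide_eq_decide]
  exact h.out b hb j

theorem pat_f (h : Sides M f g S I) {b : B} (hb : b ∈ S) :
    pat M I b (f b + 1) ≠ pat M I b (f b + 2) := by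
  unfold pat
  rw [Ne, decide_eq_decide]
  exact h.hf b hb

theorem pat_g (h : Sides M f g S I) {b : B} (hb : b ∈ S) :
    pat M I b (g b + 1) ≠ pat M I b (g b + 2) := by
  unfold pat
  rw [Ne, decide_eq_decide]
  exact h.hg b hb

/-- inner blacks -/
def IB (M : PMap B W V) (S : Finset B) (I : Finset W) : Finset B :=
  univ.filter fun b => b ∉ S ∧ ∃ j, M.e j b ∈ I

theorem sum_split (F : B → ℕ) (S : Finset B) : ∑ b, F b = ∑ b ∈ S, F b + ∑ b ∈ Sᶜ, F b := by
  rw [sum_add_sum_compl]

theorem sum_nB_out (h : Sides M f g S I) : ∑ b ∈ Sᶜ, nB (pat M I b) = (IB M S I).card := by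
  unfold IB
  rw [card_filter]
  have h1 : ∑ b, (if b ∉ S ∧ ∃ j, M.e j b ∈ I then 1 else 0) =
      ∑ b ∈ Sᶜ, (if b ∉ S ∧ ∃ j, M.e j b ∈ I then 1 else 0) := by
    symm
    apply sum_subset (subset_univ _)
    intro b _ hb
    rw [mem_compl, not_not] at hb
    rw [if_neg]
    exact fun h => h.1 hb
  rw [h1]
  refine sum_congr rfl fun b hb => ?_
  rw [mem_compl] at hb
  unfold nB
  simp [pat, hb]

theorem sides_EI (h : Sides M f g S I) (hne : ∀ b ∈ S, f b ≠ g b) :
    (EI M I).card + (EI M Iᶜ).card = 3 * Fintype.card B + 2 * S.card := by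
  rw [card_EI, card_EI, ← sum_add_distrib, sum_split _ S]
  have h1 : ∑ b ∈ S, (nE (pat M I b) + nE (pat M Iᶜ b)) = 5 * S.card := by
    rw [sum_congr rfl fun b hb => ?_, sum_const, smul_eq_mul, mul_comm]
    rw [pat_compl]
    exact (loc_in _ _ _ (hne b hb) (pat_f h hb) (pat_g h hb)).1
  have h2 : ∑ b ∈ Sᶜ, (nE (pat M I b) + nE (pat M Iᶜ b)) = 3 * Sᶜ.card := by
    rw [sum_congr rfl fun b hb => ?_, sum_const, smul_eq_mul, mul_comm]
    rw [mem_compl] at hb
    rw [pat_compl]
    exact (loc_out _ (pat_out h hb)).1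
  rw [h1, h2]
  have := card_add_card_compl S
  omega

theorem sides_BI (h : Sides M f g S I) (hne : ∀ b ∈ S, f b ≠ g b) :
    (BI M I).card + (BI M Iᶜ).card = Fintype.card B + S.card := by
  rw [card_BI, card_BI, ← sum_add_distrib, sum_split _ S]
  have h1 : ∑ b ∈ S, (nB (pat M I b) + nB (pat M Iᶜ b)) = 2 * S.card := by
    rw [sum_congr rfl fun b hb => ?_, sum_const, smul_eq_mul, mul_comm]
    rw [pat_compl]
    exact (loc_in _ _ _ (hne b hb) (pat_f h hb) (pat_g h hb)).2.1
  have h2 : ∑ b ∈ Sᶜ, (nB (pat M I b) + nB (pat M Iᶜ b)) = Sᶜ.card := by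
    rw [sum_congr rfl fun b hb => ?_, sum_const, smul_eq_mul, mul_one]
    rw [mem_compl] at hb
    rw [pat_compl]
    exact (loc_out _ (pat_out h hb)).2.1
  rw [h1, h2]
  have := card_add_card_compl S
  omega

/-- third corners inside -/
def inn (M : PMap B W V) (f : B → Fin 3) (S : Finset B) (I : Finset W) : ℕ :=
  (S.filter fun b => M.e (f b) b ∈ I).card

theorem sum_inn : ∑ b ∈ S, (if pat M I b (f b) = true then 1 else 0) = inn M f S I := by
  unfold inn
  rw [card_filter]
  refine sum_congr rfl fun b _ => ?_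
  simp [pat]

theorem count_EI (h : Sides M f g S I) (hne : ∀ b ∈ S, f b ≠ g b) :
    (EI M I).card = 3 * (IB M S I).card + 2 * S.card + inn M f S I := by
  rw [card_EI, sum_split _ S]
  have h1 : ∑ b ∈ S, nE (pat M I b) = 2 * S.card + inn M f S I := by
    rw [← sum_inn (M := M) (f := f), sum_congr rfl fun b hb =>
      (loc_in _ _ _ (hne b hb) (pat_f h hb) (pat_g h hb)).2.2.1, sum_add_distrib, sum_const,
      smul_eq_mul, mul_comm]
  have h2 : ∑ b ∈ Sᶜ, nE (pat M I b) = 3 * (IB M S I).card := by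
    rw [← sum_nB_out h, mul_sum]
    refine sum_congr rfl fun b hb => ?_
    rw [mem_compl] at hb
    exact (loc_out _ (pat_out h hb)).2.2.1
  rw [h1, h2]
  ring

theorem count_I (h : Sides M f g S I) (hne : ∀ b ∈ S, f b ≠ g b) :
    3 * I.card = 3 * (IB M S I).card + S.card + inn M f S I := by
  rw [three_card M I, sum_split _ S]
  have h1 : ∑ b ∈ S, nT (pat M I b) = S.card + inn M f S I := by
    rw [← sum_inn (M := M) (f := f), sum_congr rfl fun b hb =>
      (loc_in _ _ _ (hne b hb) (pat_f h hb) (pat_g h hb)).2.2.2, sum_add_distrib, sum_const,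
      smul_eq_mul, mul_one]
  have h2 : ∑ b ∈ Sᶜ, nT (pat M I b) = 3 * (IB M S I).card := by
    rw [← sum_nB_out h, mul_sum]
    refine sum_congr rfl fun b hb => ?_
    rw [mem_compl] at hb
    exact (loc_out _ (pat_out h hb)).2.2.2
  rw [h1, h2]
  ring

theorem count_BI (h : Sides M f g S I) (hne : ∀ b ∈ S, f b ≠ g b) :
    (BI M I).card = (IB M S I).card + S.card := by
  rw [card_BI, sum_split _ S, sum_nB_out h]
  have h1 : ∑ b ∈ S, nB (pat M I b) = S.card := by
    rw [sum_congr rfl fun b hb => ?_, sum_const, smul_eq_mul, mul_one]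
    have h2 := (loc_in _ _ _ (hne b hb) (pat_f h hb) (pat_g h hb)).2.1
    have h3 : ∀ σ : Fin 3 → Bool, nB σ ≤ 1 := by decide
    have h4 := h3 (pat M I b)
    have h5 := h3 (fun j => !pat M I b j)
    omega
  omega

/-- faces on the cycle -/
def CV (M : PMap B W V) (g : B → Fin 3) (S : Finset B) : Finset V := S.image fun b => M.c (g b) b

theorem card_CV (hA : PMap.IsAlt M f g S nx) : (CV M g S).card = S.card :=
  card_image_of_injOn fun b hb b' hb' h => hA.inj b hb b' hb' h

theorem CV_sub (h : Sides M f g S I) : CV M g S ⊆ VI M I := by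
  intro v hv
  simp only [CV, mem_image] at hv
  obtain ⟨b, hb, rfl⟩ := hv
  simp only [VI, mem_filter, mem_univ, true_and]
  exact ⟨b, g b, rfl, one_of (h.hg b hb)⟩

theorem sides_VI (h : Sides M f g S I) (hA : PMap.IsAlt M f g S nx) :
    Fintype.card V + S.card ≤ (VI M I).card + (VI M Iᶜ).card := by
  have h1 := card_union_add_card_inter (VI M I) (VI M Iᶜ)
  have h2 : VI M I ∪ VI M Iᶜ = univ := by
    rw [eq_univ_iff_forall]
    intro v
    obtain ⟨j, b, hb⟩ := M.surj v
    rw [mem_union]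
    by_cases hI : M.e (j + 1) b ∈ I
    · left
      simp only [VI, mem_filter, mem_univ, true_and]
      exact ⟨b, j, hb, Or.inl hI⟩
    · right
      simp only [VI, mem_filter, mem_univ, true_and]
      exact ⟨b, j, hb, Or.inl (mem_compl.2 hI)⟩
  have h3 : S.card ≤ (VI M I ∩ VI M Iᶜ).card := by
    rw [← card_CV hA]
    exact card_le_card (subset_inter (CV_sub h) (CV_sub h.compl))
  rw [h2, card_univ] at h1
  omega

theorem inner_faces (h : Sides M f g S I) (hA : PMap.IsAlt M f g S nx) {b0 : B} (hb0 : b0 ∉ S)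
    (hm : PMap.IsMatch M b0 g) (hI0 : ∀ j, M.e j b0 ∉ I) :
    (IB M S I).card = (VI M I \ CV M g S).card := by
  refine card_bij (fun b _ => M.c (g b) b) ?_ ?_ ?_
  · intro b hb
    simp only [IB, mem_filter, mem_univ, true_and] at hb
    obtain ⟨hbS, j, hj⟩ := hb
    have hbb : b ≠ b0 := by
      rintro rfl
      exact hI0 j hj
    rw [mem_sdiff]
    constructor
    · simp only [VI, mem_filter, mem_univ, true_and]
      exact ⟨b, g b, rfl, Or.inl ((out_same h hbS j _).1 hj)⟩
    · intro hC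
      simp only [CV, mem_image] at hC
      obtain ⟨b', hb', he⟩ := hC
      have : b' = b := hm.inj b' b (by rintro rfl; exact hb0 hb') hbb he
      exact hbS (this ▸ hb')
  · intro b hb b' hb' he
    simp only [IB, mem_filter, mem_univ, true_and] at hb hb'
    obtain ⟨_, j, hj⟩ := hb
    obtain ⟨_, j', hj'⟩ := hb'
    exact hm.inj b b' (by rintro rfl; exact hI0 j hj) (by rintro rfl; exact hI0 j' hj') he
  · intro v hv
    rw [mem_sdiff] at hv
    obtain ⟨hv1, hv2⟩ := hv
    have hvC : ∀ b ∈ S, M.c (g b) b ≠ v := by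
      intro b hb he
      apply hv2
      simp only [CV, mem_image]
      exact ⟨b, hb, he⟩
    simp only [VI, mem_filter, mem_univ, true_and] at hv1
    obtain ⟨x, j, hx, hxj⟩ := hv1
    have hx1 : M.e (j + 1) x ∈ I := by
      rcases hxj with h' | h'
      · exact h'
      · exact (face_same' h hA hvC hx).2 h'
    have hall : ∀ y i, M.c i y = v → M.e (i + 1) y ∈ I := by
      intro y i hy
      have hij : i = j := M.cls i j y x (hy.trans hx.symm)
      subst hij
      exact (face_same h hA hvC hx hy).1 hx1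
    obtain ⟨b, hb, hbv⟩ := hm.surj v (by
      intro j' hj'
      exact hI0 _ (hall b0 j' hj'))
    refine ⟨b, ?_, hbv⟩
    simp only [IB, mem_filter, mem_univ, true_and]
    refine ⟨fun hS => hvC b hS hbv, _, hall b _ hbv⟩

/-- Euler's formula for the inner side. -/
theorem euler_in (hS : M.Sph) (h : Sides M f g S I) (hA : PMap.IsAlt M f g S nx)
    (hI : I.Nonempty) (hI' : Iᶜ.Nonempty) :
    I.card + ((BI M I).card + (VI M I).card) = (EI M I).card + 1 := by
  have h1 := side_ineq hS.conn h hA (by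
    intro h'; rw [h', compl_univ] at hI'; exact not_nonempty_empty hI')
  have h2 := side_ineq hS.conn h.compl hA (by
    intro h'
    rw [compl_eq_univ_iff] at h'
    rw [h'] at hI; exact not_nonempty_empty hI)
  have h3 := sides_EI h hA.ne
  have h4 := sides_BI h hA.ne
  have h5 := sides_VI h hA
  have h6 := card_add_card_compl I
  have h7 := hS.card
  have h8 : Fintype.card W = Fintype.card B := (Fintype.card_congr (M.e 0)).symm
  omega

/-- The number `a` of inner whites, of inner blacks and of inner third corners. -/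
theorem t2_core (hS : M.Sph) (h : Sides M f g S I) (hA : PMap.IsAlt M f g S nx) {b0 : B}
    (hb0 : b0 ∉ S) (hm : PMap.IsMatch M b0 g) (hI : I.Nonempty) (hI0 : ∀ j, M.e j b0 ∉ I) :
    S.card = 2 * inn M f S I + 3 ∧ I.card = (IB M S I).card + inn M f S I + 1 := by
  have h1 := euler_in hS h hA hI ⟨M.e 0 b0, mem_compl.2 (hI0 0)⟩
  have h2 := count_EI h hA.ne
  have h3 := count_I h hA.ne
  have h4 := count_BI h hA.ne
  have h5 := inner_faces h hA hb0 hm hI0
  have h6 := card_sdiff_add_card_eq_card (CV_sub h)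
  have h7 := card_CV hA
  omega

end count

/-- **STEP 2.** -/
theorem t2 (M : PMap B W V) : M.T2 := by
  intro hS f g S nx b0 hA hb0 hm s I hs hI hI0 hcyc
  exact (t2_core hS (Sides.of_cyc hA.ne hs hcyc) hA hb0 hm hI hI0).1

end Vale.Agent.P039.H84
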